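import Vale.Agent.Lib.P193.Mach.Comp

/-!
# P193, Mach, module ToFin: machines with states `Fin m` and counters `Fin r`

`Pos p` is finite (structural induction; `Finite` instances of `Empty`, `Unit`, sums, `Option`).
Take an equivalence `e : Option (Pos p) ≃ Fin m`. The machine: `M (e none) = halt`,
`M (e (some a))` is `code p a` with the registers `i < r` (by `Bdd`, all the registers in `code p a`
are `< r`: structural induction; if `r ≤ i` put `fail`). A run `RT (code p) t X l o` gives
`Run M (e t) x (o.map fun _ => l)` if `X j = x j` for all `j < r` (induction on `RT`;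
`update X i v` and `update x ⟨i, _⟩ v` again agree).
Mortality: `x : Fin r → ℕ` is extended by `0` to `X`, then `comp_mort`.
-/

namespace P193.Mach

open Function

variable {s : ℕ}

instance pos_finite : (p : Prog s) → Finite (Pos p) := by
  intro p
  induction p with
  | skip => exact inferInstanceAs (Finite Empty)
  | inc i => exact inferInstanceAs (Finite Unit)
  | emit a => exact inferInstanceAs (Finite Unit)
  | fail => exact inferInstanceAs (Finite Unit)
  | seq p q hp hq => exact inferInstanceAs (Finite (Pos p ⊕ Pos q))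
  | cond i p q hp hq => exact inferInstanceAs (Finite (Option (Pos p ⊕ Pos q)))
  | wh i p hp => exact inferInstanceAs (Finite (Option (Pos p)))

/-- the register of the instruction is `< r` -/
def FI.BddR {Q : Type} {s : ℕ} (r : ℕ) : FI Q s → Prop
  | .inc i _ => i < r
  | .dec i _ _ => i < r
  | .emit _ _ => True
  | .fail => True

theorem FI.bddR_map {Q Q' : Type} {s r : ℕ} (f : Q → Q') {I : FI Q s} (h : I.BddR r) :
    (I.map f).BddR r := by
  cases I <;> exact h

theorem code_bddR {r : ℕ} {p : Prog s} (hb : Bdd r p) (q : Pos p) : (code p q).BddR r := by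
  induction p with
  | skip => exact q.elim
  | inc i => exact hb
  | emit a => trivial
  | fail => trivial
  | seq p p' hp hp' =>
    rcases q with a | a
    · exact FI.bddR_map _ (hp hb.1 a)
    · exact FI.bddR_map _ (hp' hb.2 a)
  | cond i p p' hp hp' =>
    rcases q with _ | a | a
    · exact hb.1
    · exact FI.bddR_map _ (hp hb.2.1 a)
    · exact FI.bddR_map _ (hp' hb.2.2 a)
  | wh i p hp =>
    rcases q with _ | a
    · exact hb.1
    · exact FI.bddR_map _ (hp hb.2 a)

/-- translation of an instruction -/
def toInstr {Q : Type} {r m : ℕ} (e : Option Q → Fin m) : FI (Option Q) s → Instr r m s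
  | .inc i t => if h : i < r then .inc ⟨i, h⟩ (e t) else .fail
  | .dec i t t' => if h : i < r then .dec ⟨i, h⟩ (e t) (e t') else .fail
  | .emit a t => .emit a (e t)
  | .fail => .fail

/-- the machine -/
def toM {Q : Type} {r m : ℕ} (e : Option Q ≃ Fin m) (c : Q → FI (Option Q) s) (q : Fin m) :
    Instr r m s :=
  (e.symm q).elim .halt fun a => toInstr e (c a)

theorem toM_none {Q : Type} {r m : ℕ} (e : Option Q ≃ Fin m) (c : Q → FI (Option Q) s) :
    (toM e c (e none) : Instr r m s) = .halt := by
  simp [toM]

theorem toM_some {Q : Type} {r m : ℕ} (e : Option Q ≃ Fin m) (c : Q → FI (Option Q) s) (a : Q) :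
    (toM e c (e (some a)) : Instr r m s) = toInstr e (c a) := by
  simp [toM]

theorem update_agree {r : ℕ} {X : ℕ → ℕ} {x : Fin r → ℕ} (h : ∀ j : Fin r, X j = x j) {i : ℕ}
    (hi : i < r) (v : ℕ) (j : Fin r) : update X i v j = update x ⟨i, hi⟩ v j := by
  by_cases hj : j = ⟨i, hi⟩
  · subst hj
    simp
  · have hj' : (j : ℕ) ≠ i := fun h' => hj (Fin.ext h')
    rw [update_of_ne hj', update_of_ne hj, h]

theorem run_of_RT {Q : Type} {r m : ℕ} (e : Option Q ≃ Fin m) (c : Q → FI (Option Q) s)
    (hc : ∀ q, (c q).BddR r) {t : Option Q} {X : ℕ → ℕ} {l : List (Fin s)}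
    {o : Option (ℕ → ℕ)} (h : RT c t X l o) :
    ∀ x : Fin r → ℕ, (∀ j : Fin r, X j = x j) → Run (toM e c) (e t) x (o.map fun _ => l) := by
  induction h with
  | exit X =>
    intro x _
    exact Run.halt _ x (toM_none e c)
  | fail q X hq =>
    intro x _
    refine Run.fail _ x ?_
    rw [toM_some, hq]
    rfl
  | inc q t X i l o hq _ ih =>
    intro x hx
    have hi : i < r := by
      have := hc q
      rw [hq] at this
      exact this
    refine Run.inc _ (e t) x ⟨i, hi⟩ _ ?_ ?_
    · rw [toM_some, hq]
      simp [toInstr, hi]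
    · have h1 : X i = x ⟨i, hi⟩ := hx ⟨i, hi⟩
      rw [← h1]
      exact ih _ (update_agree hx hi _)
  | dec_pos q t t' X i n l o hq hn _ ih =>
    intro x hx
    have hi : i < r := by
      have := hc q
      rw [hq] at this
      exact this
    refine Run.dec_pos _ (e t) (e t') x ⟨i, hi⟩ n _ ?_ ?_ (ih _ (update_agree hx hi _))
    · rw [toM_some, hq]
      simp [toInstr, hi]
    · rw [← hx ⟨i, hi⟩]
      exact hn
  | dec_zero q t t' X i l o hq hn _ ih =>
    intro x hx
    have hi : i < r := by
      have := hc q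
      rw [hq] at this
      exact this
    refine Run.dec_zero _ (e t) (e t') x ⟨i, hi⟩ _ ?_ ?_ (ih _ hx)
    · rw [toM_some, hq]
      simp [toInstr, hi]
    · rw [← hx ⟨i, hi⟩]
      exact hn
  | emit q t X a l o hq _ ih =>
    intro x hx
    have h1 := Run.emit (M := toM e c) (e (some q)) (e t) x a _ (by
      rw [toM_some, hq]
      rfl) (ih x hx)
    have h2 : (o.map fun _ => l).map (fun l => a :: l) = o.map fun _ => a :: l := by
      cases o <;> rfl
    rw [h2] at h1
    exact h1

theorem to_machine {r : ℕ} (p : Prog s) (hb : Bdd r p) (ht : AllTotal p)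
    (t : Fin 3 → Option (Pos p)) :
    ∃ (m : ℕ) (M : Fin m → Instr r m s) (start : Fin 3 → Fin m), Mortal M ∧
      ∀ (i : Fin 3) (x : Fin r → ℕ) (X : ℕ → ℕ) (l : List (Fin s)) (o : Option (ℕ → ℕ)),
        (∀ j : Fin r, X j = x j) → RT (code p) (t i) X l o →
        Run M (start i) x (o.map fun _ => l) := by
  obtain ⟨m, ⟨e⟩⟩ := Finite.exists_equiv_fin (Option (Pos p))
  refine ⟨m, toM e (code p), fun i => e (t i), ?_, ?_⟩
  · intro q x
    obtain ⟨t', rfl⟩ := e.surjective q
    rcases t' with _ | a
    · exact ⟨_, Run.halt _ x (toM_none e _)⟩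
    · obtain ⟨l, o, h⟩ := comp_mort ht a (fun j => if hj : j < r then x ⟨j, hj⟩ else 0)
      exact ⟨_, run_of_RT e (code p) (code_bddR hb) h x fun j => by simp⟩
  · intro i x X l o hx h
    exact run_of_RT e (code p) (code_bddR hb) h x hx

end P193.Mach
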