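import Vale.Agent.Lib.P193.Mach.MainProg
import Vale.Agent.Lib.P193.Mach.ToFin

/-!
# P193, Mach: the final theorem

Every computable family `F : Fin 3 → ℕ → Option (List (Fin s))` is computed by a mortal machine:
from every state and every counter contents the machine stops.
-/

namespace P193.Mach

open Function

variable {s : ℕ}

theorem rt_seq_right {p q : Prog s} {t : Option (Pos q)} {x : ℕ → ℕ} {l : List (Fin s)}
    {o : Option (ℕ → ℕ)} (h : RT (code q) t x l o) :
    RT (code (.seq p q)) (t.map Sum.inr) x l o := by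
  induction h with
  | exit x => exact RT.exit x
  | fail q' x hq =>
    refine RT.fail (c := code (.seq p q)) _ _ ?_
    show (code q q').map (Option.map Sum.inr) = _
    rw [hq]
    rfl
  | inc q' t x i l o hq _ ih =>
    refine RT.inc (c := code (.seq p q)) _ (t.map Sum.inr) _ i _ _ ?_ ih
    show (code q q').map (Option.map Sum.inr) = _
    rw [hq]
    rfl
  | dec_pos q' t t' x i n l o hq hx _ ih =>
    refine RT.dec_pos (c := code (.seq p q)) _ (t.map Sum.inr) (t'.map Sum.inr) _ i n _ _ ?_ hx ih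
    show (code q q').map (Option.map Sum.inr) = _
    rw [hq]
    rfl
  | dec_zero q' t t' x i l o hq hx _ ih =>
    refine RT.dec_zero (c := code (.seq p q)) _ (t.map Sum.inr) (t'.map Sum.inr) _ i _ _ ?_ hx ih
    show (code q q').map (Option.map Sum.inr) = _
    rw [hq]
    rfl
  | emit q' t x a l o hq _ ih =>
    refine RT.emit (c := code (.seq p q)) _ (t.map Sum.inr) _ a _ _ ?_ ih
    show (code q q').map (Option.map Sum.inr) = _
    rw [hq]
    rfl

/-- the start register contents -/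
def st0 (k : ℕ) : ℕ → ℕ := fun j => if j = 0 then k else 0

theorem mach (s : ℕ) (F : Fin 3 → ℕ → Option (List (Fin s))) (hF : ∀ i, Computable (F i)) :
    ∃ (r m : ℕ) (hr : 0 < r) (M : Fin m → Instr r m s) (start : Fin 3 → Fin m),
      Mortal M ∧ ∀ i k, Run M (start i) (Pi.single ⟨0, hr⟩ k) (F i k) := by
  obtain ⟨P⟩ := exists_parts F hF
  have h7 := P.hB
  have hb : Bdd P.B (.seq (.inc 1) (.seq (.inc 1) P.main) : Prog s) :=
    ⟨show 1 < P.B by omega, show 1 < P.B by omega, P.main_bdd⟩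
  have ht : AllTotal (.seq (.inc 1) (.seq (.inc 1) P.main) : Prog s) :=
    ⟨trivial, trivial, P.main_allTotal⟩
  obtain ⟨m, M, start, hM, h⟩ := to_machine (.seq (.inc 1) (.seq (.inc 1) P.main)) hb ht
    ![((entry P.main).map Sum.inr).map Sum.inr, some (Sum.inr (Sum.inl ())), some (Sum.inl ())]
  have hr : 0 < P.B := by omega
  refine ⟨P.B, m, hr, M, start, hM, ?_⟩
  have key : ∀ (i : Fin 3) (k : ℕ), ∃ (l : List (Fin s)) (o : Option (ℕ → ℕ)),
      RT (code (.seq (.inc 1) (.seq (.inc 1) P.main)))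
        (![((entry P.main).map Sum.inr).map Sum.inr, some (Sum.inr (Sum.inl ())),
          some (Sum.inl ())] i) (st0 k) l o ∧ (o.map fun _ => l) = F i k := by
    intro i k
    have u1 : st0 k 1 = 0 := rfl
    obtain ⟨x1, hx1⟩ : ∃ x1 : ℕ → ℕ, x1 = update (st0 k) 1 (st0 k 1 + 1) := ⟨_, rfl⟩
    have v0 : x1 0 = k := by rw [hx1]; rfl
    have v1 : x1 1 = 1 := by rw [hx1]; simp [u1]
    have v6 : x1 6 = 0 := by rw [hx1]; rfl
    obtain ⟨x2, hx2⟩ : ∃ x2 : ℕ → ℕ, x2 = update x1 1 (x1 1 + 1) := ⟨_, rfl⟩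
    have w0 : x2 0 = k := by rw [hx2]; simp [v0]
    have w1 : x2 1 = 2 := by rw [hx2]; simp [v1]
    have w6 : x2 6 = 0 := by rw [hx2]; simp [v6]
    have e1 : Exec (.inc 1 : Prog s) (st0 k) [] (some x1) := by
      rw [hx1]
      exact Exec.inc 1 _
    have e2 : Exec (.inc 1 : Prog s) x1 [] (some x2) := by
      rw [hx2]
      exact Exec.inc 1 _
    have hi : i = 0 ∨ i = 1 ∨ i = 2 := by
      fin_cases i <;> simp
    rcases hi with rfl | rfl | rfl
    · obtain ⟨l, o, h1, h2⟩ := P.main_exec (st0 k) rfl (by rw [u1]; norm_num)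
      refine ⟨l, o, rt_seq_right (rt_seq_right (comp_run h1)), ?_⟩
      rw [h2]
      rfl
    · obtain ⟨l, o, h1, h2⟩ := P.main_exec x1 v6 (by rw [v1]; norm_num)
      refine ⟨[] ++ l, o, rt_seq_right (comp_run (Exec.seq_some e1 h1)), ?_⟩
      rw [List.nil_append, h2, v0]
      congr 1
      exact Fin.ext v1
    · obtain ⟨l, o, h1, h2⟩ := P.main_exec x2 w6 (by rw [w1]; norm_num)
      refine ⟨[] ++ ([] ++ l), o, comp_run (Exec.seq_some e1 (Exec.seq_some e2 h1)), ?_⟩
      rw [List.nil_append, List.nil_append, h2, w0]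
      congr 1
      exact Fin.ext w1
  intro i k
  obtain ⟨l, o, h1, h2⟩ := key i k
  rw [← h2]
  refine h i _ (st0 k) l o ?_ h1
  intro j
  by_cases hj : j = ⟨0, hr⟩
  · subst hj
    simp [st0]
  · have hj' : (j : ℕ) ≠ 0 := fun h' => hj (Fin.ext h')
    simp [st0, hj, hj']

end P193.Mach
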