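import Mathlib

/-!
# P193, Mach: mortal counter machines - definitions

`Instr`, `Run`, `Mortal` : the machines of the final theorem (`Main.lean`).
`LP` : LOOP programs on registers `ℕ → ℕ` (destructive loops), with total semantics `LP.eval`.
`Prog` : while programs with output, with big step semantics `Exec`.
`Pos`, `entry`, `code` : compilation of a `Prog` to a machine with states `Option (Pos p)`
(`none` is the exit), with semantics `RT`.
-/

namespace P193.Mach

open Function

/-! ### The machines -/

/-- instructions of a counter machine with `r` counters, `m` states and output alphabet `Fin s` -/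
inductive Instr (r m s : ℕ)
  /-- increment the counter `i` and go to `q` -/
  | inc (i : Fin r) (q : Fin m)
  /-- if the counter `i` is positive decrement it and go to `q`, otherwise go to `q'` -/
  | dec (i : Fin r) (q q' : Fin m)
  /-- output the symbol `a` and go to `q` -/
  | emit (a : Fin s) (q : Fin m)
  /-- stop with success -/
  | halt
  /-- stop with failure -/
  | fail

/-- `Run M q x o`: the machine started in the state `q` with the counters `x` stops with the
result `o` (`none` for failure, otherwise the list of the symbols output on the way) -/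
inductive Run {r m s : ℕ} (M : Fin m → Instr r m s) :
    Fin m → (Fin r → ℕ) → Option (List (Fin s)) → Prop
  | halt (q : Fin m) (x : Fin r → ℕ) : M q = .halt → Run M q x (some [])
  | fail (q : Fin m) (x : Fin r → ℕ) : M q = .fail → Run M q x none
  | inc (q q' : Fin m) (x : Fin r → ℕ) (i : Fin r) (o : Option (List (Fin s))) :
      M q = .inc i q' → Run M q' (update x i (x i + 1)) o → Run M q x o
  | dec_pos (q q' q'' : Fin m) (x : Fin r → ℕ) (i : Fin r) (n : ℕ)
      (o : Option (List (Fin s))) : M q = .dec i q' q'' → x i = n + 1 →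
      Run M q' (update x i n) o → Run M q x o
  | dec_zero (q q' q'' : Fin m) (x : Fin r → ℕ) (i : Fin r)
      (o : Option (List (Fin s))) : M q = .dec i q' q'' → x i = 0 → Run M q'' x o → Run M q x o
  | emit (q q' : Fin m) (x : Fin r → ℕ) (a : Fin s) (o : Option (List (Fin s))) :
      M q = .emit a q' → Run M q' x o → Run M q x (o.map (a :: ·))

/-- the machine stops from EVERY state and ALL counter contents -/
def Mortal {r m s : ℕ} (M : Fin m → Instr r m s) : Prop :=
  ∀ q x, ∃ o, Run M q x o

/-! ### LOOP programs -/

/-- LOOP programs; `loop i p` is `while x i ≠ 0 do (x i := x i - 1; p)` -/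
inductive LP : Type
  | skip : LP
  | inc (i : ℕ) : LP
  | seq (p q : LP) : LP
  | loop (i : ℕ) (p : LP) : LP

namespace LP

/-- the registers that are mentioned -/
def regs : LP → Finset ℕ
  | skip => ∅
  | inc i => {i}
  | seq p q => p.regs ∪ q.regs
  | loop i p => insert i p.regs

/-- the loop register is not mentioned in the body -/
def WF : LP → Prop
  | skip => True
  | inc _ => True
  | seq p q => p.WF ∧ q.WF
  | loop i p => i ∉ p.regs ∧ p.WF

/-- semantics -/
def eval : LP → (ℕ → ℕ) → (ℕ → ℕ)
  | skip, x => x
  | inc i, x => update x i (x i + 1)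
  | seq p q, x => q.eval (p.eval x)
  | loop i p, x => (p.eval)^[x i] (update x i 0)

end LP

/-! ### While programs with output -/

/-- while programs; `cond i p q` is `if x i ≠ 0 then (x i := x i - 1; p) else q`;
`wh i p` is `while x i ≠ 0 do (x i := x i - 1; p)` -/
inductive Prog (s : ℕ) : Type
  | skip : Prog s
  | inc (i : ℕ) : Prog s
  | emit (a : Fin s) : Prog s
  | fail : Prog s
  | seq (p q : Prog s) : Prog s
  | cond (i : ℕ) (p q : Prog s) : Prog s
  | wh (i : ℕ) (p : Prog s) : Prog s

/-- big step semantics: `Exec p x l r`: the program `p` started with the registers `x` outputs the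
list `l` and ends with the registers `y` (`r = some y`) or fails (`r = none`) -/
inductive Exec {s : ℕ} : Prog s → (ℕ → ℕ) → List (Fin s) → Option (ℕ → ℕ) → Prop
  | skip (x : ℕ → ℕ) : Exec .skip x [] (some x)
  | inc (i : ℕ) (x : ℕ → ℕ) : Exec (.inc i) x [] (some (update x i (x i + 1)))
  | emit (a : Fin s) (x : ℕ → ℕ) : Exec (.emit a) x [a] (some x)
  | fail (x : ℕ → ℕ) : Exec .fail x [] none
  | seq_some {p q : Prog s} {x y : ℕ → ℕ} {l l' : List (Fin s)} {o : Option (ℕ → ℕ)} :
      Exec p x l (some y) → Exec q y l' o → Exec (.seq p q) x (l ++ l') o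
  | seq_none {p q : Prog s} {x : ℕ → ℕ} {l : List (Fin s)} :
      Exec p x l none → Exec (.seq p q) x l none
  | cond_pos {i n : ℕ} {p q : Prog s} {x : ℕ → ℕ} {l : List (Fin s)} {o : Option (ℕ → ℕ)} :
      x i = n + 1 → Exec p (update x i n) l o → Exec (.cond i p q) x l o
  | cond_zero {i : ℕ} {p q : Prog s} {x : ℕ → ℕ} {l : List (Fin s)} {o : Option (ℕ → ℕ)} :
      x i = 0 → Exec q x l o → Exec (.cond i p q) x l o
  | wh_zero {i : ℕ} {p : Prog s} {x : ℕ → ℕ} : x i = 0 → Exec (.wh i p) x [] (some x)
  | wh_some {i n : ℕ} {p : Prog s} {x y : ℕ → ℕ} {l l' : List (Fin s)}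
      {o : Option (ℕ → ℕ)} : x i = n + 1 → Exec p (update x i n) l (some y) →
      Exec (.wh i p) y l' o → Exec (.wh i p) x (l ++ l') o
  | wh_none {i n : ℕ} {p : Prog s} {x : ℕ → ℕ} {l : List (Fin s)} :
      x i = n + 1 → Exec p (update x i n) l none → Exec (.wh i p) x l none

/-- the program terminates from all register contents -/
def Total {s : ℕ} (p : Prog s) : Prop := ∀ x, ∃ l o, Exec p x l o

/-- all loops inside `p` terminate from all register contents -/
def AllTotal {s : ℕ} : Prog s → Prop
  | .skip => True
  | .inc _ => True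
  | .emit _ => True
  | .fail => True
  | .seq p q => AllTotal p ∧ AllTotal q
  | .cond _ p q => AllTotal p ∧ AllTotal q
  | .wh i p => AllTotal p ∧ Total (.wh i p)

/-- all registers mentioned in `p` are `< r` -/
def Bdd {s : ℕ} (r : ℕ) : Prog s → Prop
  | .skip => True
  | .inc i => i < r
  | .emit _ => True
  | .fail => True
  | .seq p q => Bdd r p ∧ Bdd r q
  | .cond i p q => i < r ∧ Bdd r p ∧ Bdd r q
  | .wh i p => i < r ∧ Bdd r p

/-- LOOP programs as while programs -/
def LP.toProg {s : ℕ} : LP → Prog s
  | .skip => .skip
  | .inc i => .inc i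
  | .seq p q => .seq p.toProg q.toProg
  | .loop i p => .wh i p.toProg

/-! ### Compilation -/

/-- instructions of a machine with states in `Q` -/
inductive FI (Q : Type) (s : ℕ) : Type
  | inc (i : ℕ) (q : Q) : FI Q s
  | dec (i : ℕ) (q q' : Q) : FI Q s
  | emit (a : Fin s) (q : Q) : FI Q s
  | fail : FI Q s

/-- change the states -/
def FI.map {Q Q' : Type} {s : ℕ} (f : Q → Q') : FI Q s → FI Q' s
  | .inc i q => .inc i (f q)
  | .dec i q q' => .dec i (f q) (f q')
  | .emit a q => .emit a (f q)
  | .fail => .fail

/-- positions inside the code of `p` -/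
def Pos {s : ℕ} : Prog s → Type
  | .skip => Empty
  | .inc _ => Unit
  | .emit _ => Unit
  | .fail => Unit
  | .seq p q => Pos p ⊕ Pos q
  | .cond _ p q => Option (Pos p ⊕ Pos q)
  | .wh _ p => Option (Pos p)

/-- the entry point (`none` is the exit) -/
def entry {s : ℕ} : (p : Prog s) → Option (Pos p)
  | .skip => none
  | .inc _ => some ()
  | .emit _ => some ()
  | .fail => some ()
  | .seq p q => (entry p).elim ((entry q).map Sum.inr) (fun a => some (Sum.inl a))
  | .cond _ _ _ => some none
  | .wh _ _ => some none

/-- the code -/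
def code {s : ℕ} : (p : Prog s) → Pos p → FI (Option (Pos p)) s
  | .skip => fun q => nomatch q
  | .inc i => fun _ => .inc i none
  | .emit a => fun _ => .emit a none
  | .fail => fun _ => .fail
  | .seq p q => fun t => match t with
    | Sum.inl a => (code p a).map
        (fun b => b.elim ((entry q).map Sum.inr) (fun b => some (Sum.inl b)))
    | Sum.inr a => (code q a).map (Option.map Sum.inr)
  | .cond i p q => fun t => match t with
    | none => .dec i ((entry p).map (fun a => some (Sum.inl a)))
        ((entry q).map (fun a => some (Sum.inr a)))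
    | some (Sum.inl a) => (code p a).map (Option.map (fun a => some (Sum.inl a)))
    | some (Sum.inr a) => (code q a).map (Option.map (fun a => some (Sum.inr a)))
  | .wh i p => fun t => match t with
    | none => .dec i (some (entry p)) none
    | some a => (code p a).map (fun b => some b)

/-- runs of a machine with states `Option Q` (`none` is the exit): output and result -/
inductive RT {Q : Type} {s : ℕ} (c : Q → FI (Option Q) s) :
    Option Q → (ℕ → ℕ) → List (Fin s) → Option (ℕ → ℕ) → Prop
  | exit (x : ℕ → ℕ) : RT c none x [] (some x)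
  | fail (q : Q) (x : ℕ → ℕ) : c q = .fail → RT c (some q) x [] none
  | inc (q : Q) (t : Option Q) (x : ℕ → ℕ) (i : ℕ) (l : List (Fin s)) (o : Option (ℕ → ℕ)) :
      c q = .inc i t → RT c t (update x i (x i + 1)) l o → RT c (some q) x l o
  | dec_pos (q : Q) (t t' : Option Q) (x : ℕ → ℕ) (i n : ℕ) (l : List (Fin s))
      (o : Option (ℕ → ℕ)) : c q = .dec i t t' → x i = n + 1 → RT c t (update x i n) l o →
      RT c (some q) x l o
  | dec_zero (q : Q) (t t' : Option Q) (x : ℕ → ℕ) (i : ℕ) (l : List (Fin s))
      (o : Option (ℕ → ℕ)) : c q = .dec i t t' → x i = 0 → RT c t' x l o → RT c (some q) x l o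
  | emit (q : Q) (t : Option Q) (x : ℕ → ℕ) (a : Fin s) (l : List (Fin s))
      (o : Option (ℕ → ℕ)) : c q = .emit a t → RT c t x l o → RT c (some q) x (a :: l) o

end P193.Mach
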