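import Mathlib

/-!
# P193, Mach, module Code: computability

`cl` is primitive recursive (`Primrec.list_foldr` and the arithmetic functions), so
`(i, k) ↦ HH F i k` is computable; hence there is a code `c : Nat.Partrec.Code` with
`c.eval (Nat.pair i k) = Part.some (HH F i k)`. Put
`g (j, i, k) = (Nat.Partrec.Code.evaln j c (Nat.pair i k)).elim 0 Nat.succ`. It is primitive recursive
(`Nat.Partrec.Code.primrec_evaln`, `Nat.Primrec'.of_prim`), `evaln_sound` gives `search_sound` and
`evaln_complete`, `evaln_mono` give `search_complete`.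
`HH F i k` as a function of `i k : ℕ`: `i < 3` is decided and `F ⟨i, _⟩` is one of three computable
functions (`Computable.cond`, or `Computable.of_eq` with nested `ite`).
-/

namespace P193.Mach

/-- code of a list: base `s + 2`, digits `a + 1` -/
def cl {s : ℕ} : List (Fin s) → ℕ
  | [] => 0
  | a :: l => (a : ℕ) + 1 + (s + 2) * cl l

/-- the number to be computed -/
def HH {s : ℕ} (F : Fin 3 → ℕ → Option (List (Fin s))) (i k : ℕ) : ℕ :=
  if h : i < 3 then (F ⟨i, h⟩ k).elim 0 (fun l => cl l + 1) else 0

private theorem cl_eq_foldr {s : ℕ} (l : List (Fin s)) :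
    cl l = l.foldr (fun (a : Fin s) (r : ℕ) => (a : ℕ) + 1 + (s + 2) * r) 0 := by
  induction l with
  | nil => rfl
  | cons a l ih => rw [cl, List.foldr_cons, ih]

private theorem primrec_cl {s : ℕ} : Primrec (cl : List (Fin s) → ℕ) := by
  have h : Primrec₂ (fun (_ : List (Fin s)) (p : Fin s × ℕ) => (p.1 : ℕ) + 1 + (s + 2) * p.2) := by
    refine Primrec.nat_add.comp ?_ ?_
    · exact Primrec.succ.comp (Primrec.fin_val.comp (Primrec.fst.comp Primrec.snd))
    · exact Primrec.nat_mul.comp (Primrec.const (s + 2)) (Primrec.snd.comp Primrec.snd)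
  have h2 := Primrec.list_foldr (f := fun l : List (Fin s) => l) (g := fun _ => 0)
    Primrec.id (Primrec.const 0) h
  exact h2.of_eq fun l => (cl_eq_foldr l).symm

private theorem computable_elim {s : ℕ} (f : ℕ → Option (List (Fin s))) (hf : Computable f) :
    Computable (fun k => (f k).elim 0 (fun l => cl l + 1)) := by
  have h : Computable₂ (fun (_ : ℕ) (l : List (Fin s)) => cl l + 1) :=
    (Primrec.succ.comp (primrec_cl.comp Primrec.snd)).to_comp.to₂
  have h2 := Computable.option_casesOn hf (Computable.const 0) h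
  refine h2.of_eq fun k => ?_
  cases f k <;> rfl

private theorem computable_HH {s : ℕ} (F : Fin 3 → ℕ → Option (List (Fin s)))
    (hF : ∀ i, Computable (F i)) :
    Computable (fun p : ℕ => HH F p.unpair.1 p.unpair.2) := by
  have hfst : Computable (fun p : ℕ => p.unpair.1) := (Primrec.fst.comp Primrec.unpair).to_comp
  have hsnd : Computable (fun p : ℕ => p.unpair.2) := (Primrec.snd.comp Primrec.unpair).to_comp
  have hd : ∀ m : ℕ, Computable (fun p : ℕ => decide (p.unpair.1 = m)) := fun m =>
    (PrimrecPred.decide (Primrec.eq.comp (Primrec.fst.comp Primrec.unpair)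
      (Primrec.const m))).to_comp
  have h0 := (computable_elim (F 0) (hF 0)).comp hsnd
  have h1 := (computable_elim (F 1) (hF 1)).comp hsnd
  have h2 := (computable_elim (F 2) (hF 2)).comp hsnd
  have h := Computable.cond (hd 0) h0
    (Computable.cond (hd 1) h1 (Computable.cond (hd 2) h2 (Computable.const 0)))
  refine h.of_eq fun p => ?_
  unfold HH
  by_cases e0 : p.unpair.1 = 0
  · simp [e0]
  · by_cases e1 : p.unpair.1 = 1
    · simp [e1]
    · by_cases e2 : p.unpair.1 = 2
      · simp [e2]
      · have : ¬ p.unpair.1 < 3 := by omega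
        simp [e0, e1, e2, this]

theorem exists_search {s : ℕ} (F : Fin 3 → ℕ → Option (List (Fin s)))
    (hF : ∀ i, Computable (F i)) :
    ∃ g : List.Vector ℕ 3 → ℕ, Nat.Primrec' g ∧
      (∀ j i k v : ℕ, g (j ::ᵥ i ::ᵥ k ::ᵥ List.Vector.nil) = v + 1 → v = HH F i k) ∧
      (∀ i k : ℕ, ∃ J : ℕ, ∀ j, J ≤ j → g (j ::ᵥ i ::ᵥ k ::ᵥ List.Vector.nil) ≠ 0) := by
  have hp : Nat.Partrec (fun p : ℕ => Part.some (HH F p.unpair.1 p.unpair.2)) :=
    Partrec.nat_iff.1 (computable_HH F hF)
  obtain ⟨c, hc⟩ := Nat.Partrec.Code.exists_code.1 hp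
  have hc' : ∀ i k : ℕ, c.eval (Nat.pair i k) = Part.some (HH F i k) := by
    intro i k
    rw [hc]
    simp
  refine ⟨fun v => (Nat.Partrec.Code.evaln v.head c (Nat.pair (v.tail.head) v.tail.tail.head)).elim 0
    Nat.succ, ?_, ?_, ?_⟩
  · apply Nat.Primrec'.of_prim
    have h1 : Primrec (fun v : List.Vector ℕ 3 => v.head) := Primrec.vector_head
    have h2 : Primrec (fun v : List.Vector ℕ 3 => v.tail.head) :=
      Primrec.vector_head.comp Primrec.vector_tail
    have h3 : Primrec (fun v : List.Vector ℕ 3 => v.tail.tail.head) :=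
      Primrec.vector_head.comp (Primrec.vector_tail.comp Primrec.vector_tail)
    have h4 : Primrec (fun v : List.Vector ℕ 3 =>
        Nat.Partrec.Code.evaln v.head c (Nat.pair (v.tail.head) v.tail.tail.head)) :=
      Nat.Partrec.Code.primrec_evaln.comp
        ((h1.pair (Primrec.const c)).pair (Primrec₂.natPair.comp h2 h3))
    have h5 := Primrec.option_casesOn h4 (Primrec.const 0)
      (Primrec.succ.comp Primrec.snd).to₂
    refine h5.of_eq fun v => ?_
    cases Nat.Partrec.Code.evaln v.head c (Nat.pair (v.tail.head) v.tail.tail.head) <;> rfl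
  · intro j i k v h
    simp only [List.Vector.head_cons, List.Vector.tail_cons] at h
    rcases he : Nat.Partrec.Code.evaln j c (Nat.pair i k) with _ | w
    · rw [he] at h
      simp at h
    · rw [he] at h
      have hw : w = v := Nat.succ.inj h
      have := Nat.Partrec.Code.evaln_sound (k := j) (c := c) (n := Nat.pair i k) (x := w)
        (by rw [he]; rfl)
      rw [hc' i k] at this
      rw [← hw]
      simpa using this
  · intro i k
    have hmem : HH F i k ∈ c.eval (Nat.pair i k) := by
      rw [hc' i k]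
      exact Part.mem_some _
    obtain ⟨J, hJ⟩ := Nat.Partrec.Code.evaln_complete.1 hmem
    refine ⟨J, fun j hj => ?_⟩
    have hJ' := Nat.Partrec.Code.evaln_mono hj hJ
    simp only [List.Vector.head_cons, List.Vector.tail_cons]
    rw [Option.mem_def] at hJ'
    rw [hJ']
    exact Nat.succ_ne_zero _

theorem primrec'_mod (b : ℕ) : Nat.Primrec' (fun v : List.Vector ℕ 1 => v.head % b) :=
  Nat.Primrec'.of_prim (Primrec.nat_mod.comp Primrec.vector_head (Primrec.const b))

theorem primrec'_div (b : ℕ) : Nat.Primrec' (fun v : List.Vector ℕ 1 => v.head / b) :=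
  Nat.Primrec'.of_prim (Primrec.nat_div.comp Primrec.vector_head (Primrec.const b))

end P193.Mach
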