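import Vale.Agent.Lib.P193.Mach.Defs

/-!
# P193, Mach, module Comp: correctness of the compilation, mortality

First prove, for each construct, how a run of the code of a part gives a run of the code of the
whole program, for example for `seq p q`: if `RT (code p) t x l o` then
- if `o = none`: `RT (code (seq p q)) (t embedded) x l none`,
- if `o = some y` and `RT (code (seq p q)) ((entry q).map Sum.inr) y l' o'` then
  `RT (code (seq p q)) (t embedded) x (l ++ l') o'`,
where `t embedded = t.elim ((entry q).map Sum.inr) (fun a => some (Sum.inl a))`; induction on `RT`.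
Similarly for `q` inside `seq p q`, for `p`, `q` inside `cond i p q` and for `p` inside `wh i p`
(the exit of `p` is the test position `some none`).

`comp_run`: induction on `Exec`. `comp_mort`: structural induction on `p`. For `wh i p`: from the
test position use `Total (wh i p)` and `comp_run`; from a position inside `p` the run reaches the
exit of `p`, that is the test position, or fails.
-/

namespace P193.Mach

open Function

variable {s : ℕ}

private theorem emb_run {Q Q' : Type} {c : Q → FI (Option Q) s} {C : Q' → FI (Option Q') s}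
    {emb : Q → Q'} {ex : Option Q'}
    (hC : ∀ a, C (emb a) = (c a).map fun b => b.elim ex fun a => some (emb a))
    {t : Option Q} {x : ℕ → ℕ} {l : List (Fin s)} {o : Option (ℕ → ℕ)} (h : RT c t x l o) :
    (o = none → RT C (t.elim ex fun a => some (emb a)) x l none) ∧
    ∀ y, o = some y → ∀ l' o', RT C ex y l' o' →
      RT C (t.elim ex fun a => some (emb a)) x (l ++ l') o' := by
  induction h with
  | exit x =>
    refine ⟨fun h => by simp at h, fun y hy l' o' h' => ?_⟩
    obtain rfl := Option.some.inj hy
    simpa using h'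
  | fail q x hq =>
    refine ⟨fun _ => ?_, fun y hy => by simp at hy⟩
    refine RT.fail _ _ ?_
    rw [hC, hq]
    rfl
  | inc q t x i l o hq _ ih =>
    have e : C (emb q) = .inc i (t.elim ex fun a => some (emb a)) := by
      rw [hC, hq]
      rfl
    refine ⟨fun h => RT.inc _ _ _ i _ _ e (ih.1 h), fun y hy l' o' h' =>
      RT.inc _ _ _ i _ _ e (ih.2 y hy l' o' h')⟩
  | dec_pos q t t' x i n l o hq hx _ ih =>
    have e : C (emb q) = .dec i (t.elim ex fun a => some (emb a))
        (t'.elim ex fun a => some (emb a)) := by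
      rw [hC, hq]
      rfl
    refine ⟨fun h => RT.dec_pos _ _ _ _ i n _ _ e hx (ih.1 h), fun y hy l' o' h' =>
      RT.dec_pos _ _ _ _ i n _ _ e hx (ih.2 y hy l' o' h')⟩
  | dec_zero q t t' x i l o hq hx _ ih =>
    have e : C (emb q) = .dec i (t.elim ex fun a => some (emb a))
        (t'.elim ex fun a => some (emb a)) := by
      rw [hC, hq]
      rfl
    refine ⟨fun h => RT.dec_zero _ _ _ _ i _ _ e hx (ih.1 h), fun y hy l' o' h' =>
      RT.dec_zero _ _ _ _ i _ _ e hx (ih.2 y hy l' o' h')⟩
  | emit q t x a l o hq _ ih =>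
    have e : C (emb q) = .emit a (t.elim ex fun a => some (emb a)) := by
      rw [hC, hq]
      rfl
    refine ⟨fun h => RT.emit _ _ _ a _ _ e (ih.1 h), fun y hy l' o' h' =>
      RT.emit _ _ _ a _ _ e (ih.2 y hy l' o' h')⟩

private theorem emb_run0 {Q Q' : Type} {c : Q → FI (Option Q) s} {C : Q' → FI (Option Q') s}
    {emb : Q → Q'} (hC : ∀ a, C (emb a) = (c a).map (Option.map emb))
    {t : Option Q} {x : ℕ → ℕ} {l : List (Fin s)} {o : Option (ℕ → ℕ)} (h : RT c t x l o) :
    RT C (t.map emb) x l o := by
  have hg : (Option.map emb : Option Q → Option Q') =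
      fun b => b.elim none fun a => some (emb a) := by
    funext b
    cases b <;> rfl
  have hC' : ∀ a, C (emb a) = (c a).map fun b => b.elim none fun a => some (emb a) := by
    intro a
    rw [hC, hg]
  have h1 := emb_run hC' h
  rw [hg]
  cases o with
  | none => exact h1.1 rfl
  | some y =>
    have h2 := h1.2 y rfl [] (some y) (RT.exit y)
    rw [List.append_nil] at h2
    exact h2

section parts

variable (p q : Prog s) (i : ℕ)

private theorem seq_left {t : Option (Pos p)} {x : ℕ → ℕ} {l : List (Fin s)}
    {o : Option (ℕ → ℕ)} (h : RT (code p) t x l o) :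
    (o = none → RT (code (.seq p q))
      (t.elim ((entry q).map Sum.inr) fun a => some (Sum.inl a)) x l none) ∧
    ∀ y, o = some y → ∀ l' o', RT (code (.seq p q)) ((entry q).map Sum.inr) y l' o' →
      RT (code (.seq p q)) (t.elim ((entry q).map Sum.inr) fun a => some (Sum.inl a)) x
        (l ++ l') o' :=
  emb_run (C := code (.seq p q)) (emb := Sum.inl) (fun _ => rfl) h

private theorem seq_right {t : Option (Pos q)} {x : ℕ → ℕ} {l : List (Fin s)}
    {o : Option (ℕ → ℕ)} (h : RT (code q) t x l o) :
    RT (code (.seq p q)) (t.map Sum.inr) x l o :=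
  emb_run0 (C := code (.seq p q)) (emb := Sum.inr) (fun _ => rfl) h

private theorem cond_left {t : Option (Pos p)} {x : ℕ → ℕ} {l : List (Fin s)}
    {o : Option (ℕ → ℕ)} (h : RT (code p) t x l o) :
    RT (code (.cond i p q)) (t.map fun a => some (Sum.inl a)) x l o :=
  emb_run0 (C := code (.cond i p q)) (emb := fun a => some (Sum.inl a)) (fun _ => rfl) h

private theorem cond_right {t : Option (Pos q)} {x : ℕ → ℕ} {l : List (Fin s)}
    {o : Option (ℕ → ℕ)} (h : RT (code q) t x l o) :
    RT (code (.cond i p q)) (t.map fun a => some (Sum.inr a)) x l o :=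
  emb_run0 (C := code (.cond i p q)) (emb := fun a => some (Sum.inr a)) (fun _ => rfl) h

private theorem wh_body {t : Option (Pos p)} {x : ℕ → ℕ} {l : List (Fin s)}
    {o : Option (ℕ → ℕ)} (h : RT (code p) t x l o) :
    (o = none → RT (code (.wh i p)) (some t) x l none) ∧
    ∀ y, o = some y → ∀ l' o', RT (code (.wh i p)) (some none) y l' o' →
      RT (code (.wh i p)) (some t) x (l ++ l') o' := by
  have e : (fun b : Option (Pos p) => (some b : Option (Option (Pos p)))) =
      fun b => b.elim (some none) fun a => some (some a) := by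
    funext b
    cases b <;> rfl
  have hC : ∀ a : Pos p, code (.wh i p) (some a) =
      (code p a).map fun b => b.elim (some none) fun a => some (some a) := by
    intro a
    show (code p a).map (fun b => some b) = _
    rw [e]
  have h1 := emb_run (C := code (.wh i p)) (emb := some) hC h
  cases t with
  | none => exact h1
  | some a => exact h1

end parts

theorem comp_run {p : Prog s} {x : ℕ → ℕ} {l : List (Fin s)} {o : Option (ℕ → ℕ)}
    (h : Exec p x l o) : RT (code p) (entry p) x l o := by
  induction h with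
  | skip x => exact RT.exit x
  | inc i x => exact RT.inc _ none _ i _ _ rfl (RT.exit _)
  | emit a x => exact RT.emit _ none _ a _ _ rfl (RT.exit _)
  | fail x => exact RT.fail _ _ rfl
  | @seq_some p q x y l l' o _ _ ih1 ih2 =>
    exact (seq_left p q ih1).2 y rfl l' o (seq_right p q ih2)
  | @seq_none p q x l _ ih => exact (seq_left p q ih).1 rfl
  | @cond_pos i n p q x l o hx _ ih =>
    exact RT.dec_pos _ _ _ _ i n _ _ rfl hx (cond_left p q i ih)
  | @cond_zero i p q x l o hx _ ih =>
    exact RT.dec_zero _ _ _ _ i _ _ rfl hx (cond_right p q i ih)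
  | @wh_zero i p x hx => exact RT.dec_zero _ _ _ _ i _ _ rfl hx (RT.exit _)
  | @wh_some i n p x y l l' o hx _ _ ih1 ih2 =>
    exact RT.dec_pos _ _ _ _ i n _ _ rfl hx ((wh_body p i ih1).2 y rfl l' o ih2)
  | @wh_none i n p x l hx _ ih =>
    exact RT.dec_pos _ _ _ _ i n _ _ rfl hx ((wh_body p i ih).1 rfl)

theorem total_of_allTotal {p : Prog s} (h : AllTotal p) : Total p := by
  induction p with
  | skip => exact fun x => ⟨_, _, Exec.skip x⟩
  | inc i => exact fun x => ⟨_, _, Exec.inc i x⟩
  | emit a => exact fun x => ⟨_, _, Exec.emit a x⟩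
  | fail => exact fun x => ⟨_, _, Exec.fail x⟩
  | seq p q ihp ihq =>
    intro x
    obtain ⟨l, o, h1⟩ := ihp h.1 x
    cases o with
    | none => exact ⟨_, _, Exec.seq_none h1⟩
    | some y =>
      obtain ⟨l', o', h2⟩ := ihq h.2 y
      exact ⟨_, _, Exec.seq_some h1 h2⟩
  | cond i p q ihp ihq =>
    intro x
    rcases hx : x i with _ | n
    · obtain ⟨l, o, h1⟩ := ihq h.2 x
      exact ⟨_, _, Exec.cond_zero hx h1⟩
    · obtain ⟨l, o, h1⟩ := ihp h.1 (update x i n)
      exact ⟨_, _, Exec.cond_pos hx h1⟩
  | wh i p _ => exact h.2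

theorem comp_mort {p : Prog s} (h : AllTotal p) (q : Pos p) (x : ℕ → ℕ) :
    ∃ l o, RT (code p) (some q) x l o := by
  induction p generalizing x with
  | skip => exact nomatch q
  | inc i => exact ⟨_, _, RT.inc _ none _ i _ _ rfl (RT.exit _)⟩
  | emit a => exact ⟨_, _, RT.emit _ none _ a _ _ rfl (RT.exit _)⟩
  | fail => exact ⟨_, _, RT.fail _ _ rfl⟩
  | seq p q' ihp ihq =>
    match q with
    | Sum.inl a =>
      obtain ⟨l, o, h1⟩ := ihp h.1 a x
      have h2 := seq_left p q' h1
      cases o with
      | none => exact ⟨_, _, h2.1 rfl⟩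
      | some y =>
        obtain ⟨l', o', h3⟩ := total_of_allTotal h.2 y
        exact ⟨_, _, h2.2 y rfl l' o' (seq_right p q' (comp_run h3))⟩
    | Sum.inr a =>
      obtain ⟨l, o, h1⟩ := ihq h.2 a x
      exact ⟨_, _, seq_right p q' h1⟩
  | cond i p q' ihp ihq =>
    match q with
    | none =>
      obtain ⟨l, o, h1⟩ := total_of_allTotal (p := .cond i p q') h x
      exact ⟨_, _, comp_run h1⟩
    | some (Sum.inl a) =>
      obtain ⟨l, o, h1⟩ := ihp h.1 a x
      exact ⟨_, _, cond_left p q' i h1⟩
    | some (Sum.inr a) =>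
      obtain ⟨l, o, h1⟩ := ihq h.2 a x
      exact ⟨_, _, cond_right p q' i h1⟩
  | wh i p ihp =>
    match q with
    | none =>
      obtain ⟨l, o, h1⟩ := h.2 x
      exact ⟨_, _, comp_run h1⟩
    | some a =>
      obtain ⟨l, o, h1⟩ := ihp h.1 a x
      have h2 := wh_body p i h1
      cases o with
      | none => exact ⟨_, _, h2.1 rfl⟩
      | some y =>
        obtain ⟨l', o', h3⟩ := h.2 y
        exact ⟨_, _, h2.2 y rfl l' o' (comp_run h3)⟩

end P193.Mach
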