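import Vale.Agent.Lib.P193.Mach.Defs

/-!
# P193, Mach, module LPEval: LOOP programs

Everything by structural induction on the program.

`eval_of_notMem`, `eval_update`: simultaneous reading: a register that is not mentioned is neither
read nor written. For `loop i p` (`j ≠ i`, `j ∉ p.regs`): `update_comm`, and induction on the number
of iterations.

`exec`: for `loop i p`: show by induction on `n` that for `x i = n` the while loop started with `x`
ends with `(p.eval)^[n] (update x i 0)`: the body is started with `update x i (n - 1)`, ends with
`p.eval (update x i (n-1)) = update (p.eval x) i (n-1)` and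
`(p.eval)^[n-1] (update (p.eval x) i 0) = (p.eval)^[n-1] (p.eval (update x i 0))` (`eval_update`).

`allTotal`: from `exec`.
-/

namespace P193.Mach

open Function

namespace LP

theorem eval_of_notMem (p : LP) {j : ℕ} (h : j ∉ p.regs) (x : ℕ → ℕ) : p.eval x j = x j := by
  induction p generalizing x with
  | skip => rfl
  | inc i =>
    have hj : j ≠ i := by simpa [regs] using h
    exact update_of_ne hj _ _
  | seq p q ihp ihq =>
    have h' : j ∉ p.regs ∧ j ∉ q.regs := by simpa [regs] using h
    show q.eval (p.eval x) j = x j
    rw [ihq h'.2, ihp h'.1]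
  | loop i p ih =>
    have h' : j ≠ i ∧ j ∉ p.regs := by simpa [regs] using h
    have key : ∀ (n : ℕ) (y : ℕ → ℕ), (p.eval)^[n] y j = y j := by
      intro n
      induction n with
      | zero => intro y; rfl
      | succ n ihn =>
        intro y
        rw [iterate_succ_apply, ihn, ih h'.2]
    show (p.eval)^[x i] (update x i 0) j = x j
    rw [key, update_of_ne h'.1]

theorem eval_update (p : LP) {j : ℕ} (h : j ∉ p.regs) (x : ℕ → ℕ) (v : ℕ) :
    p.eval (update x j v) = update (p.eval x) j v := by
  induction p generalizing x with
  | skip => rfl
  | inc i =>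
    have hj : j ≠ i := by simpa [regs] using h
    show update (update x j v) i (update x j v i + 1) = update (update x i (x i + 1)) j v
    rw [update_of_ne (Ne.symm hj), update_comm hj]
  | seq p q ihp ihq =>
    have h' : j ∉ p.regs ∧ j ∉ q.regs := by simpa [regs] using h
    show q.eval (p.eval (update x j v)) = update (q.eval (p.eval x)) j v
    rw [ihp h'.1, ihq h'.2]
  | loop i p ih =>
    have h' : j ≠ i ∧ j ∉ p.regs := by simpa [regs] using h
    have key : ∀ (n : ℕ) (y : ℕ → ℕ), (p.eval)^[n] (update y j v) = update ((p.eval)^[n] y) j v := by
      intro n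
      induction n with
      | zero => intro y; rfl
      | succ n ihn =>
        intro y
        rw [iterate_succ_apply, iterate_succ_apply, ih h'.2, ihn]
    show (p.eval)^[update x j v i] (update (update x j v) i 0) =
      update ((p.eval)^[x i] (update x i 0)) j v
    rw [update_of_ne (Ne.symm h'.1), update_comm h'.1, key]

theorem exec {s : ℕ} (p : LP) (h : p.WF) (x : ℕ → ℕ) :
    Exec (p.toProg : Prog s) x [] (some (p.eval x)) := by
  induction p generalizing x with
  | skip => exact Exec.skip x
  | inc i => exact Exec.inc i x
  | seq p q ihp ihq =>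
    have h1 := Exec.seq_some (ihp h.1 x) (ihq h.2 (p.eval x))
    exact h1
  | loop i p ih =>
    have hi : i ∉ p.regs := h.1
    have key : ∀ (n : ℕ) (y : ℕ → ℕ), y i = n →
        Exec (Prog.wh i (p.toProg : Prog s)) y [] (some ((p.eval)^[n] (update y i 0))) := by
      intro n
      induction n with
      | zero =>
        intro y hy
        have e : update y i 0 = y := by
          rw [← hy, update_eq_self]
        rw [e]
        exact Exec.wh_zero hy
      | succ n ihn =>
        intro y hy
        have h1 := ih h.2 (update y i n)
        have h2 : p.eval (update y i n) i = n := by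
          rw [eval_of_notMem p hi, update_self]
        have h3 := Exec.wh_some hy h1 (ihn _ h2)
        have e : update (p.eval (update y i n)) i 0 = p.eval (update y i 0) := by
          rw [← eval_update p hi, update_idem]
        rw [e, ← iterate_succ_apply] at h3
        exact h3
    exact key (x i) x rfl

theorem allTotal {s : ℕ} (p : LP) (h : p.WF) : AllTotal (p.toProg : Prog s) := by
  induction p with
  | skip => trivial
  | inc i => trivial
  | seq p q ihp ihq => exact ⟨ihp h.1, ihq h.2⟩
  | loop i p ih => exact ⟨ih h.2, fun x => ⟨[], _, exec (s := s) (loop i p) h x⟩⟩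

theorem bdd {s r : ℕ} (p : LP) (h : ∀ j ∈ p.regs, j < r) : Bdd r (p.toProg : Prog s) := by
  induction p with
  | skip => trivial
  | inc i => exact h i (by simp [regs])
  | seq p q ihp ihq =>
    exact ⟨ihp fun j hj => h j (by simp [regs, hj]), ihq fun j hj => h j (by simp [regs, hj])⟩
  | loop i p ih =>
    exact ⟨h i (by simp [regs]), ih fun j hj => h j (by simp [regs, hj])⟩

/-- clear a register -/
def clr (i : ℕ) : LP := loop i skip

theorem clr_eval (i : ℕ) (x : ℕ → ℕ) : (clr i).eval x = update x i 0 := by
  show (skip.eval)^[x i] (update x i 0) = update x i 0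
  have e : skip.eval = id := rfl
  rw [e, iterate_id]
  rfl

/-- add `x i` to `x j` and clear `x i` -/
def mov (i j : ℕ) : LP := loop i (inc j)

private theorem inc_iterate (j n : ℕ) (y : ℕ → ℕ) :
    ((inc j).eval)^[n] y = update y j (y j + n) := by
  induction n generalizing y with
  | zero =>
    show y = update y j (y j + 0)
    rw [Nat.add_zero, update_eq_self]
  | succ n ih =>
    rw [iterate_succ_apply, ih]
    show update (update y j (y j + 1)) j (update y j (y j + 1) j + n) = _
    rw [update_idem, update_self]
    congr 1
    omega

theorem mov_eval {i j : ℕ} (h : i ≠ j) (x : ℕ → ℕ) :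
    (mov i j).eval x = update (update x i 0) j (x j + x i) := by
  show ((inc j).eval)^[x i] (update x i 0) = _
  rw [inc_iterate, update_of_ne (Ne.symm h)]

/-- add `x i` to `x j`, with the temporary register `t` -/
def cpy (i j t : ℕ) : LP := seq (loop i (seq (inc j) (inc t))) (loop t (inc i))

private theorem inc2_iterate {j t : ℕ} (h : j ≠ t) (n : ℕ) (y : ℕ → ℕ) :
    ((seq (inc j) (inc t)).eval)^[n] y = update (update y j (y j + n)) t (y t + n) := by
  induction n generalizing y with
  | zero =>
    show y = update (update y j (y j + 0)) t (y t + 0)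
    rw [Nat.add_zero, update_eq_self, Nat.add_zero, update_eq_self]
  | succ n ih =>
    rw [iterate_succ_apply, ih]
    have e : (seq (inc j) (inc t)).eval y = update (update y j (y j + 1)) t (y t + 1) := by
      show update (update y j (y j + 1)) t (update y j (y j + 1) t + 1) = _
      rw [update_of_ne (Ne.symm h)]
    rw [e]
    funext k
    simp only [update_apply]
    split_ifs <;> first | omega | simp_all

theorem cpy_eval {i j t : ℕ} (h1 : i ≠ j) (h2 : i ≠ t) (h3 : j ≠ t) (x : ℕ → ℕ) (ht : x t = 0) :
    (cpy i j t).eval x = update x j (x j + x i) := by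
  have e1 : (loop i (seq (inc j) (inc t))).eval x =
      update (update (update x i 0) j (x j + x i)) t (x i) := by
    show ((seq (inc j) (inc t)).eval)^[x i] (update x i 0) = _
    rw [inc2_iterate h3, update_of_ne (Ne.symm h1), update_of_ne (Ne.symm h2), ht, Nat.zero_add]
  have e2 : ∀ y : ℕ → ℕ, (loop t (inc i)).eval y = update (update y t 0) i (y i + y t) := by
    intro y
    show ((inc i).eval)^[y t] (update y t 0) = _
    rw [inc_iterate, update_of_ne h2]
  show (loop t (inc i)).eval ((loop i (seq (inc j) (inc t))).eval x) = _
  rw [e1, e2]
  funext k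
  simp only [update_apply]
  split_ifs <;> first | omega | simp_all

/-- clear the registers `a, ..., a + n - 1` -/
def clrs (a : ℕ) : ℕ → LP
  | 0 => skip
  | n + 1 => seq (clrs a n) (clr (a + n))

theorem clrs_eval (a n : ℕ) (x : ℕ → ℕ) :
    (clrs a n).eval x = fun j => if a ≤ j ∧ j < a + n then 0 else x j := by
  induction n with
  | zero =>
    funext j
    show x j = _
    rw [if_neg (by omega)]
  | succ n ih =>
    show (clr (a + n)).eval ((clrs a n).eval x) = _
    rw [clr_eval, ih]
    funext j
    simp only [update_apply]
    split_ifs <;> first | rfl | omega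

theorem clrs_WF (a n : ℕ) : (clrs a n).WF := by
  induction n with
  | zero => trivial
  | succ n ih => exact ⟨ih, by simp [regs], trivial⟩

theorem clrs_regs (a n : ℕ) : ∀ j ∈ (clrs a n).regs, a ≤ j ∧ j < a + n := by
  induction n with
  | zero =>
    intro j hj
    simp [clrs, regs] at hj
  | succ n ih =>
    intro j hj
    have hj' : j = a + n ∨ j ∈ (clrs a n).regs := by
      simpa [clrs, regs, clr] using hj
    rcases hj' with h | h
    · omega
    · have := ih j h
      omega

end LP

end P193.Mach
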