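import Vale.Agent.Lib.P193.Mach.PR
import Vale.Agent.Lib.P193.Mach.Comp
import Vale.Agent.Lib.P193.Mach.Code

/-!
# P193, Mach: the main program

Registers: `0` argument, `1` number of the function, `2` search bound, `3` value, `4` digit,
`5` quotient, `6` flag, `7 ≤ j < B` work registers.
-/

namespace P193.Mach

open Function

/-- the subprograms, with their properties -/
structure Parts (s : ℕ) (F : Fin 3 → ℕ → Option (List (Fin s))) where
  B : ℕ
  hB : 7 ≤ B
  gg : ℕ → ℕ → ℕ → ℕ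
  sound : ∀ j i k v, gg j i k = v + 1 → v = HH F i k
  complete : ∀ i k, ∃ J, ∀ j, J ≤ j → gg j i k ≠ 0
  G : LP
  G_WF : G.WF
  G_regs : ∀ j ∈ G.regs, j < B
  G_eval : ∀ x : ℕ → ℕ, (∀ j, 7 ≤ j → j < B → x j = 0) → x 3 = 0 →
    G.eval x = update x 3 (gg (x 2) (x 1) (x 0))
  Hd : LP
  Hd_WF : Hd.WF
  Hd_regs : ∀ j ∈ Hd.regs, j < B
  Hd_eval : ∀ x : ℕ → ℕ, (∀ j, 7 ≤ j → j < B → x j = 0) → x 4 = 0 →
    Hd.eval x = update x 4 (x 3 % (s + 2))
  Tl : LP
  Tl_WF : Tl.WF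
  Tl_regs : ∀ j ∈ Tl.regs, j < B
  Tl_eval : ∀ x : ℕ → ℕ, (∀ j, 7 ≤ j → j < B → x j = 0) → x 5 = 0 →
    Tl.eval x = update x 5 (x 3 / (s + 2))

theorem exists_parts {s : ℕ} (F : Fin 3 → ℕ → Option (List (Fin s)))
    (hF : ∀ i, Computable (F i)) : Nonempty (Parts s F) := by
  obtain ⟨g, hg, hs, hc⟩ := exists_search F hF
  obtain ⟨G, B1, hB1, G_WF, G_regs, G_eval⟩ := exists_LP hg ![2, 1, 0] 3 7
    (by intro i; fin_cases i <;> simp) (by norm_num) (by intro i; fin_cases i <;> simp)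
  obtain ⟨Hd, B2, hB2, Hd_WF, Hd_regs, Hd_eval⟩ := exists_LP (primrec'_mod (s + 2)) ![3] 4 7
    (by intro i; fin_cases i; simp) (by norm_num) (by intro i; fin_cases i; simp)
  obtain ⟨Tl, B3, hB3, Tl_WF, Tl_regs, Tl_eval⟩ := exists_LP (primrec'_div (s + 2)) ![3] 5 7
    (by intro i; fin_cases i; simp) (by norm_num) (by intro i; fin_cases i; simp)
  obtain ⟨B, hB⟩ : ∃ B, B = max B1 (max B2 B3) := ⟨_, rfl⟩
  have e1 : B1 ≤ B := by omega
  have e2 : B2 ≤ B := by omega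
  have e3 : B3 ≤ B := by omega
  refine ⟨⟨B, by omega, fun j i k => g (j ::ᵥ i ::ᵥ k ::ᵥ List.Vector.nil), hs, hc,
    G, G_WF, fun j hj => (G_regs j hj).trans_le e1, ?_,
    Hd, Hd_WF, fun j hj => (Hd_regs j hj).trans_le e2, ?_,
    Tl, Tl_WF, fun j hj => (Tl_regs j hj).trans_le e3, ?_⟩⟩
  · intro x hx h3
    rw [G_eval x (fun j h h' => hx j h (by omega)) h3]
    rfl
  · intro x hx h3
    rw [Hd_eval x (fun j h h' => hx j h (by omega)) h3]
    rfl
  · intro x hx h3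
    rw [Tl_eval x (fun j h h' => hx j h (by omega)) h3]
    rfl

variable {s : ℕ} {F : Fin 3 → ℕ → Option (List (Fin s))}

namespace Parts

variable (P : Parts s F)

/-- clear the work registers -/
def W : LP := LP.clrs 7 (P.B - 7)

/-- one search step -/
def searchLP : LP := .seq (LP.clr 3) (.seq P.W P.G)

def searchBody : Prog s :=
  .seq P.searchLP.toProg (.cond 3 (.inc 3) (.seq (.inc 2) (.inc 6)))

def search : Prog s := .wh 6 P.searchBody

/-- one output step -/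
def outLP : LP :=
  .seq (.inc 3) (.seq (LP.clrs 4 2) (.seq P.W (.seq P.Hd (.seq P.Tl (.seq (LP.clr 3) (LP.mov 5 3))))))

end Parts

/-- output of the symbol number `x 4` of the list -/
def disp : List (Fin s) → Prog s
  | [] => .skip
  | a :: L => .cond 4 (disp L) (.emit a)

namespace Parts

variable (P : Parts s F)

def outBody : Prog s := .seq P.outLP.toProg (.cond 4 (disp (List.finRange s)) .skip)

def outLoop : Prog s := .wh 3 P.outBody

def main : Prog s :=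
  .seq (.inc 6) (.seq P.search (.seq (.cond 3 .skip .fail) (.seq (.cond 3 .skip .fail) P.outLoop)))

/-! ### Well-formedness -/

theorem W_WF : P.W.WF := LP.clrs_WF _ _

theorem W_eval (x : ℕ → ℕ) :
    P.W.eval x = fun j => if 7 ≤ j ∧ j < P.B then 0 else x j := by
  have h := P.hB
  unfold W
  rw [LP.clrs_eval]
  have e : 7 + (P.B - 7) = P.B := by omega
  rw [e]

theorem W_regs : ∀ j ∈ P.W.regs, j < P.B := by
  intro j hj
  have h := P.hB
  have h1 := LP.clrs_regs 7 (P.B - 7) j hj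
  omega

theorem searchLP_WF : P.searchLP.WF :=
  ⟨⟨by simp [LP.regs], trivial⟩, P.W_WF, P.G_WF⟩

theorem outLP_WF : P.outLP.WF :=
  ⟨trivial, LP.clrs_WF _ _, P.W_WF, P.Hd_WF, P.Tl_WF, ⟨by simp [LP.regs], trivial⟩,
    ⟨by simp [LP.regs], trivial⟩⟩

theorem searchLP_bdd : Bdd P.B (P.searchLP.toProg : Prog s) := by
  have h := P.hB
  refine LP.bdd _ ?_
  intro j hj
  simp only [searchLP, LP.regs, LP.clr, Finset.mem_union, Finset.mem_insert, Finset.notMem_empty,
    or_false] at hj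
  rcases hj with hj | hj | hj
  · omega
  · exact P.W_regs j hj
  · exact P.G_regs j hj

theorem outLP_bdd : Bdd P.B (P.outLP.toProg : Prog s) := by
  have h := P.hB
  refine LP.bdd _ ?_
  intro j hj
  simp only [outLP, LP.regs, LP.clr, LP.mov, Finset.mem_union, Finset.mem_insert,
    Finset.mem_singleton, Finset.notMem_empty, or_false] at hj
  rcases hj with hj | hj | hj | hj | hj | hj | hj | hj
  · omega
  · have := LP.clrs_regs 4 2 j hj
    omega
  · exact P.W_regs j hj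
  · exact P.Hd_regs j hj
  · exact P.Tl_regs j hj
  · omega
  · omega
  · omega

theorem disp_bdd (h : 4 < P.B) (L : List (Fin s)) : Bdd P.B (disp L) := by
  induction L with
  | nil => trivial
  | cons a L ih => exact ⟨h, ih, trivial⟩

theorem main_bdd : Bdd P.B P.main := by
  have h := P.hB
  refine ⟨?_, ⟨?_, P.searchLP_bdd, ?_, ?_, ?_, ?_⟩, ⟨?_, trivial, trivial⟩, ⟨?_, trivial, trivial⟩,
    ?_, P.outLP_bdd, ?_, P.disp_bdd (by omega) _, trivial⟩
  all_goals (try show _ < P.B); omega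

/-! ### The search -/

theorem searchLP_eval (x : ℕ → ℕ) :
    P.searchLP.eval x = update (fun j => if 7 ≤ j ∧ j < P.B then 0 else update x 3 0 j) 3
      (P.gg (x 2) (x 1) (x 0)) := by
  have h := P.hB
  show P.G.eval (P.W.eval ((LP.clr 3).eval x)) = _
  rw [LP.clr_eval, P.W_eval, P.G_eval]
  · rfl
  · intro j h1 h2
    simp [h1, h2]
  · simp

theorem searchBody_exec (x : ℕ → ℕ) : ∃ y, Exec P.searchBody x [] (some y) ∧ y 0 = x 0 ∧
    y 1 = x 1 ∧
    ((P.gg (x 2) (x 1) (x 0) = 0 ∧ y 2 = x 2 + 1 ∧ y 6 = x 6 + 1) ∨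
      (P.gg (x 2) (x 1) (x 0) ≠ 0 ∧ y 2 = x 2 ∧ y 3 = P.gg (x 2) (x 1) (x 0) ∧ y 6 = x 6)) := by
  have h1 := LP.exec (s := s) P.searchLP P.searchLP_WF x
  rw [P.searchLP_eval] at h1
  obtain ⟨e, he⟩ : ∃ e, e = P.gg (x 2) (x 1) (x 0) := ⟨_, rfl⟩
  rw [← he] at h1 ⊢
  obtain ⟨z, hz⟩ : ∃ z : ℕ → ℕ,
      z = update (fun j => if 7 ≤ j ∧ j < P.B then 0 else update x 3 0 j) 3 e := ⟨_, rfl⟩
  rw [← hz] at h1
  have z0 : z 0 = x 0 := by rw [hz]; simp
  have z1 : z 1 = x 1 := by rw [hz]; simp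
  have z2 : z 2 = x 2 := by rw [hz]; simp
  have z3 : z 3 = e := by rw [hz]; simp
  have z6 : z 6 = x 6 := by rw [hz]; simp
  rcases e with _ | e
  · refine ⟨update (update z 2 (z 2 + 1)) 6 (z 6 + 1), ?_, ?_, ?_, Or.inl ⟨rfl, ?_, ?_⟩⟩
    · have h2 : Exec (.seq (.inc 2) (.inc 6) : Prog s) z ([] ++ [])
          (some (update (update z 2 (z 2 + 1)) 6 (update z 2 (z 2 + 1) 6 + 1))) :=
        Exec.seq_some (Exec.inc 2 z) (Exec.inc 6 _)
      have e6 : update z 2 (z 2 + 1) 6 = z 6 := by simp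
      rw [e6] at h2
      have h3 := Exec.seq_some h1 (Exec.cond_zero (i := 3) (p := .inc 3) z3 h2)
      exact h3
    · simp [z0]
    · simp [z1]
    · simp [z2]
    · simp [z6]
  · refine ⟨update (update z 3 e) 3 (update z 3 e 3 + 1), ?_, ?_, ?_,
      Or.inr ⟨Nat.succ_ne_zero e, ?_, ?_, ?_⟩⟩
    · have h3 := Exec.seq_some h1 (Exec.cond_pos (i := 3) (q := .seq (.inc 2) (.inc 6)) z3
        (Exec.inc 3 (update z 3 e)))
      exact h3
    · simp [z0]
    · simp [z1]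
    · simp [z2]
    · simp
    · simp [z6]

theorem search_exec (m : ℕ) : ∀ (x : ℕ → ℕ) (J : ℕ),
    (∀ j, J ≤ j → P.gg j (x 1) (x 0) ≠ 0) → x 6 + (J - x 2) = m →
    ∃ y, Exec P.search x [] (some y) ∧ (x 6 = 1 → y 3 = HH F (x 1) (x 0) + 1) := by
  induction m using Nat.strong_induction_on with
  | _ m ih =>
    intro x J hJ hm
    rcases hx6 : x 6 with _ | n
    · exact ⟨x, Exec.wh_zero hx6, fun h => by omega⟩
    · obtain ⟨y, h1, y0, y1, h2⟩ := P.searchBody_exec (update x 6 n)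
      have u0 : update x 6 n 0 = x 0 := by simp
      have u1 : update x 6 n 1 = x 1 := by simp
      have u2 : update x 6 n 2 = x 2 := by simp
      have u6 : update x 6 n 6 = n := by simp
      rw [u0] at y0
      rw [u1] at y1
      rw [u0, u1, u2, u6] at h2
      rcases h2 with ⟨g0, y2, y6⟩ | ⟨g0, y2, y3, y6⟩
      · have hlt : x 2 < J := by
          by_contra hc
          exact hJ (x 2) (by omega) g0
        obtain ⟨w, h3, h4⟩ := ih (y 6 + (J - y 2)) (by rw [y6, y2]; omega) y J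
          (by rw [y0, y1]; exact hJ) rfl
        refine ⟨w, Exec.wh_some hx6 h1 h3, fun h => ?_⟩
        rw [y0, y1] at h4
        exact h4 (by omega)
      · obtain ⟨w, h3, h4⟩ := ih (y 6 + (J - y 2)) (by rw [y6, y2]; omega) y J
          (by rw [y0, y1]; exact hJ) rfl
        by_cases hn : n = 0
        · refine ⟨y, Exec.wh_some hx6 h1 (Exec.wh_zero (by rw [y6, hn])), fun _ => ?_⟩
          rw [y3]
          obtain ⟨v, hv⟩ := Nat.exists_eq_succ_of_ne_zero g0
          have h5 := P.sound _ _ _ _ hv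
          rw [hv, h5]
        · refine ⟨w, Exec.wh_some hx6 h1 h3, fun h => ?_⟩
          omega

/-! ### The output -/

theorem outLP_eval (x : ℕ → ℕ) :
    P.outLP.eval x 3 = (x 3 + 1) / (s + 2) ∧ P.outLP.eval x 4 = (x 3 + 1) % (s + 2) := by
  have h := P.hB
  obtain ⟨x1, hx1⟩ : ∃ x1 : ℕ → ℕ, x1 = update x 3 (x 3 + 1) := ⟨_, rfl⟩
  obtain ⟨x2, hx2⟩ : ∃ x2 : ℕ → ℕ, x2 = fun j => if 4 ≤ j ∧ j < 4 + 2 then 0 else x1 j :=
    ⟨_, rfl⟩
  obtain ⟨x3, hx3⟩ : ∃ x3 : ℕ → ℕ, x3 = fun j => if 7 ≤ j ∧ j < P.B then 0 else x2 j :=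
    ⟨_, rfl⟩
  have a3 : x3 3 = x 3 + 1 := by rw [hx3, hx2, hx1]; simp
  have a4 : x3 4 = 0 := by rw [hx3, hx2]; simp
  have a5 : x3 5 = 0 := by rw [hx3, hx2]; simp
  have aw : ∀ j, 7 ≤ j → j < P.B → x3 j = 0 := by
    intro j h1 h2
    rw [hx3]
    simp [h1, h2]
  have e4 := P.Hd_eval x3 aw a4
  obtain ⟨x4, hx4⟩ : ∃ x4 : ℕ → ℕ, x4 = update x3 4 (x3 3 % (s + 2)) := ⟨_, rfl⟩
  rw [← hx4] at e4
  have b3 : x4 3 = x 3 + 1 := by rw [hx4]; simp [a3]
  have b4 : x4 4 = (x 3 + 1) % (s + 2) := by rw [hx4, a3]; simp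
  have b5 : x4 5 = 0 := by rw [hx4]; simp [a5]
  have bw : ∀ j, 7 ≤ j → j < P.B → x4 j = 0 := by
    intro j h1 h2
    rw [hx4, update_of_ne (by omega)]
    exact aw j h1 h2
  have e5 := P.Tl_eval x4 bw b5
  obtain ⟨x5, hx5⟩ : ∃ x5 : ℕ → ℕ, x5 = update x4 5 (x4 3 / (s + 2)) := ⟨_, rfl⟩
  rw [← hx5] at e5
  have key : P.outLP.eval x = update (update (update x5 3 0) 5 0) 3
      ((update x5 3 0) 3 + (update x5 3 0) 5) := by
    show (LP.mov 5 3).eval ((LP.clr 3).eval (P.Tl.eval (P.Hd.eval (P.W.eval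
      ((LP.clrs 4 2).eval (LP.eval (.inc 3) x)))))) = _
    have q1 : LP.eval (.inc 3) x = x1 := by rw [hx1]; rfl
    have q2 : (LP.clrs 4 2).eval x1 = x2 := by rw [LP.clrs_eval, hx2]
    have q3 : P.W.eval x2 = x3 := by rw [P.W_eval, hx3]
    rw [q1, q2, q3, e4, e5, LP.clr_eval, LP.mov_eval (by norm_num)]
  rw [key]
  constructor
  · simp [hx5, b3]
  · simp [hx5, b4]

end Parts

theorem disp_lt (L : List (Fin s)) : ∀ (x : ℕ → ℕ) (n : ℕ) (_ : x 4 = n) (h : n < L.length),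
    ∃ y, Exec (disp L) x [L[n]] (some y) ∧ y 3 = x 3 := by
  induction L with
  | nil => intro x n _ h; simp at h
  | cons a L ih =>
    intro x n hn h
    rcases n with _ | n
    · exact ⟨x, Exec.cond_zero hn (Exec.emit a x), rfl⟩
    · have e : update x 4 n 4 = n := by simp
      obtain ⟨y, h1, h2⟩ := ih (update x 4 n) n e (by simpa using h)
      refine ⟨y, Exec.cond_pos hn ?_, by rw [h2]; simp⟩
      simpa using h1

theorem disp_ge (L : List (Fin s)) : ∀ (x : ℕ → ℕ), L.length ≤ x 4 →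
    ∃ y, Exec (disp L) x [] (some y) ∧ y 3 = x 3 := by
  induction L with
  | nil => intro x _; exact ⟨x, Exec.skip x, rfl⟩
  | cons a L ih =>
    intro x h
    rcases hx : x 4 with _ | n
    · rw [hx] at h
      simp at h
    · rw [hx, List.length_cons] at h
      have e : update x 4 n 4 = n := by simp
      obtain ⟨y, h1, h2⟩ := ih (update x 4 n) (by rw [e]; omega)
      exact ⟨y, Exec.cond_pos hx h1, by rw [h2]; simp⟩

namespace Parts

variable (P : Parts s F)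

theorem outBody_exec (x : ℕ → ℕ) : ∃ l y, Exec P.outBody x l (some y) ∧
    y 3 = (x 3 + 1) / (s + 2) ∧ (∀ a : Fin s, (x 3 + 1) % (s + 2) = a + 1 → l = [a]) := by
  have h1 := LP.exec (s := s) P.outLP P.outLP_WF x
  obtain ⟨h3, h4⟩ := P.outLP_eval x
  obtain ⟨z, hz⟩ : ∃ z : ℕ → ℕ, z = P.outLP.eval x := ⟨_, rfl⟩
  rw [← hz] at h1 h3 h4
  rcases hz4 : z 4 with _ | n
  · refine ⟨[] ++ [], z, Exec.seq_some h1 (Exec.cond_zero hz4 (Exec.skip z)), h3, ?_⟩
    intro a ha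
    omega
  · have e4 : update z 4 n 4 = n := by simp
    have e3 : update z 4 n 3 = z 3 := by simp
    by_cases hn : n < s
    · obtain ⟨y, h5, h6⟩ := disp_lt (List.finRange s) (update z 4 n) n e4
        (by rw [List.length_finRange]; exact hn)
      refine ⟨_, y, Exec.seq_some h1 (Exec.cond_pos hz4 h5), by rw [h6, e3, h3], ?_⟩
      intro a ha
      have hna : n = a := by omega
      simp only [List.getElem_finRange, List.nil_append, List.cons.injEq, and_true]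
      ext
      simp [hna]
    · obtain ⟨y, h5, h6⟩ := disp_ge (List.finRange s) (update z 4 n)
        (by rw [e4, List.length_finRange]; omega)
      refine ⟨_, y, Exec.seq_some h1 (Exec.cond_pos hz4 h5), by rw [h6, e3, h3], ?_⟩
      intro a ha
      have := a.2
      omega

theorem outLoop_total (n : ℕ) : ∀ x : ℕ → ℕ, x 3 = n →
    ∃ l y, Exec P.outLoop x l (some y) := by
  induction n using Nat.strong_induction_on with
  | _ n ih =>
    intro x hx
    rcases hn : x 3 with _ | k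
    · exact ⟨[], x, Exec.wh_zero hn⟩
    · obtain ⟨l, y, h1, h2, -⟩ := P.outBody_exec (update x 3 k)
      have e : update x 3 k 3 = k := by simp
      rw [e] at h2
      have hlt : (k + 1) / (s + 2) < k + 1 := Nat.div_lt_self (by omega) (by omega)
      obtain ⟨l', w, h3⟩ := ih (y 3) (by rw [h2]; omega) y rfl
      exact ⟨l ++ l', w, Exec.wh_some hn h1 h3⟩

theorem outLoop_exec (L : List (Fin s)) : ∀ x : ℕ → ℕ, x 3 = cl L →
    ∃ y, Exec P.outLoop x L (some y) := by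
  induction L with
  | nil => intro x hx; exact ⟨x, Exec.wh_zero hx⟩
  | cons a L ih =>
    intro x hx
    have ha := a.2
    have hx' : x 3 = ((a : ℕ) + (s + 2) * cl L) + 1 := by
      rw [hx, cl]
      ring
    obtain ⟨l, y, h1, h2, h3⟩ := P.outBody_exec (update x 3 ((a : ℕ) + (s + 2) * cl L))
    have e : update x 3 ((a : ℕ) + (s + 2) * cl L) 3 = (a : ℕ) + (s + 2) * cl L := by simp
    rw [e] at h2 h3
    have e1 : (a : ℕ) + (s + 2) * cl L + 1 = ((a : ℕ) + 1) + (s + 2) * cl L := by ring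
    have e2 : ((a : ℕ) + (s + 2) * cl L + 1) % (s + 2) = a + 1 := by
      rw [e1, Nat.add_mul_mod_self_left, Nat.mod_eq_of_lt (by omega)]
    have e3 : ((a : ℕ) + (s + 2) * cl L + 1) / (s + 2) = cl L := by
      rw [e1, Nat.add_mul_div_left _ _ (by omega), Nat.div_eq_of_lt (by omega), zero_add]
    have h4 := h3 a e2
    obtain ⟨w, h5⟩ := ih y (by rw [h2, e3])
    refine ⟨w, ?_⟩
    have h6 := Exec.wh_some hx' h1 h5
    rw [h4] at h6
    exact h6

/-! ### The whole program -/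

theorem disp_allTotal (L : List (Fin s)) : AllTotal (disp L) := by
  induction L with
  | nil => trivial
  | cons a L ih => exact ⟨ih, trivial⟩

theorem main_allTotal : AllTotal P.main := by
  refine ⟨trivial, ⟨⟨LP.allTotal _ P.searchLP_WF, trivial, trivial, trivial⟩, ?_⟩,
    ⟨trivial, trivial⟩, ⟨trivial, trivial⟩,
    ⟨⟨LP.allTotal _ P.outLP_WF, disp_allTotal _, trivial⟩, ?_⟩⟩
  · intro x
    obtain ⟨J, hJ⟩ := P.complete (x 1) (x 0)
    obtain ⟨y, h, -⟩ := P.search_exec _ x J hJ rfl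
    exact ⟨_, _, h⟩
  · intro x
    obtain ⟨l, y, h⟩ := P.outLoop_total _ x rfl
    exact ⟨_, _, h⟩

theorem main_exec (x : ℕ → ℕ) (h6 : x 6 = 0) (h1 : x 1 < 3) :
    ∃ l o, Exec P.main x l o ∧ (o.map fun _ => l) = F ⟨x 1, h1⟩ (x 0) := by
  obtain ⟨x', hx'⟩ : ∃ x' : ℕ → ℕ, x' = update x 6 (x 6 + 1) := ⟨_, rfl⟩
  have e0 : x' 0 = x 0 := by rw [hx']; simp
  have e1 : x' 1 = x 1 := by rw [hx']; simp
  have e6 : x' 6 = 1 := by rw [hx']; simp [h6]
  have s1 : Exec (.inc 6 : Prog s) x [] (some x') := by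
    rw [hx']
    exact Exec.inc 6 x
  obtain ⟨J, hJ⟩ := P.complete (x' 1) (x' 0)
  obtain ⟨y, s2, hy⟩ := P.search_exec _ x' J hJ rfl
  have hy3 := hy e6
  rw [e0, e1] at hy3
  have s3 : Exec (.cond 3 .skip .fail : Prog s) y [] (some (update y 3 (HH F (x 1) (x 0)))) :=
    Exec.cond_pos hy3 (Exec.skip _)
  have hHH : HH F (x 1) (x 0) = (F ⟨x 1, h1⟩ (x 0)).elim 0 (fun l => cl l + 1) := by
    unfold HH
    rw [dif_pos h1]
  rcases hF : F ⟨x 1, h1⟩ (x 0) with _ | L
  · rw [hF, Option.elim_none] at hHH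
    rw [hHH] at s3
    refine ⟨_, none, Exec.seq_some s1 (Exec.seq_some s2 (Exec.seq_some s3
      (Exec.seq_none (Exec.cond_zero (by simp) (Exec.fail _))))), rfl⟩
  · rw [hF, Option.elim_some] at hHH
    rw [hHH] at s3
    have s4 : Exec (.cond 3 .skip .fail : Prog s) (update y 3 (cl L + 1)) []
        (some (update (update y 3 (cl L + 1)) 3 (cl L))) :=
      Exec.cond_pos (by simp) (Exec.skip _)
    obtain ⟨w, s5⟩ := P.outLoop_exec L (update (update y 3 (cl L + 1)) 3 (cl L)) (by simp)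
    refine ⟨_, some w, Exec.seq_some s1 (Exec.seq_some s2 (Exec.seq_some s3
      (Exec.seq_some s4 s5))), ?_⟩
    simp

end Parts

end P193.Mach
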