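import Vale.Agent.Lib.P193.Mach.LPEval

/-!
# P193, Mach, module PR: primitive recursive functions are computed by LOOP programs

`exists_LP`: induction on `Nat.Primrec' f`. `ins i` is the register of the argument number `i`,
`out` the output register, the registers `base ≤ j < B` are work registers: they are `0` before and
after.

* `zero`: `skip`. `succ`: `cpy (ins 0) out base` and `inc out`, `B = base + 1`.
* `get i`: `cpy (ins i) out base`, `B = base + 1`.
* `comp g` (`f` of `n` arguments, `g i` of `m` arguments): for `i = 0, ..., n - 1` compute `g i` into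
  `base + i` with the work registers `base + n ≤ j`; then `f` with the inputs `base + i`; then
  `clrs base n`. (`B` = the maximum of the `B`s. First prove, by induction on `k ≤ n`, that there is
  a program that computes `g i` into `base + i` for all `i < k`.)
* `prec`: registers `a = base` (the value), `y = base + 1`, `c = base + 2` (loop counter),
  `b = base + 3` (new value), work registers from `base + 4`. Compute `f` of the tail into `a`; copy
  `ins 0` to `c`; `loop c (compute g (y, a, tail) into b; clr a; mov b a; inc y)`; `mov a out`;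
  `clr y`. The state after `k` iterations: `a = rec ... k`, `y = k`.
-/

namespace P193.Mach

open Function

private theorem cpy_WF' {i j t : ℕ} (h1 : i ≠ j) (h2 : i ≠ t) : (LP.cpy i j t).WF := by
  simp only [LP.cpy, LP.WF, LP.regs]
  refine ⟨⟨?_, trivial, trivial⟩, ?_, trivial⟩
  · simp only [Finset.mem_union, Finset.mem_singleton, not_or]
    exact ⟨h1, h2⟩
  · simp only [Finset.mem_singleton]
    exact fun h => h2 h.symm

private theorem cpy_regs' {i j t k : ℕ} (h : k ∈ (LP.cpy i j t).regs) : k = i ∨ k = j ∨ k = t := by
  simp only [LP.cpy, LP.regs, Finset.mem_union, Finset.mem_singleton, Finset.mem_insert] at h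
  tauto

private theorem clr_WF' (i : ℕ) : (LP.clr i).WF := by
  simp [LP.clr, LP.WF, LP.regs]

private theorem clr_regs' {i k : ℕ} (h : k ∈ (LP.clr i).regs) : k = i := by
  simpa [LP.clr, LP.regs] using h

private theorem mov_WF' {i j : ℕ} (h : i ≠ j) : (LP.mov i j).WF := by
  simp [LP.mov, LP.WF, LP.regs, h]

private theorem mov_regs' {i j k : ℕ} (h : k ∈ (LP.mov i j).regs) : k = i ∨ k = j := by
  simpa [LP.mov, LP.regs] using h

/-- the property proved by induction -/
private def Cmp {n : ℕ} (f : List.Vector ℕ n → ℕ) : Prop :=
  ∀ (ins : Fin n → ℕ) (out base : ℕ), (∀ i, ins i < base) → out < base → (∀ i, ins i ≠ out) →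
    ∃ (p : LP) (B : ℕ), base ≤ B ∧ p.WF ∧
      (∀ j ∈ p.regs, (∃ i, j = ins i) ∨ j = out ∨ (base ≤ j ∧ j < B)) ∧
      ∀ x : ℕ → ℕ, (∀ j, base ≤ j → j < B → x j = 0) → x out = 0 →
        p.eval x = update x out (f (List.Vector.ofFn fun i => x (ins i)))

private theorem cmp_zero : Cmp (fun _ : List.Vector ℕ 0 => 0) := by
  intro ins out base _ _ _
  refine ⟨.skip, base, le_rfl, trivial, ?_, ?_⟩
  · intro j hj
    simp [LP.regs] at hj
  · intro x _ h0
    simp only [LP.eval]
    rw [← h0, update_eq_self]

private theorem cmp_get {n : ℕ} (i : Fin n) : Cmp (fun v : List.Vector ℕ n => v.get i) := by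
  intro ins out base h1 h2 h3
  have e1 : ins i ≠ base := (h1 i).ne
  refine ⟨LP.cpy (ins i) out base, base + 1, by omega, cpy_WF' (h3 i) e1, ?_, ?_⟩
  · intro j hj
    rcases cpy_regs' hj with h | h | h
    · exact Or.inl ⟨i, h⟩
    · exact Or.inr (Or.inl h)
    · exact Or.inr (Or.inr ⟨by omega, by omega⟩)
  · intro x hx h0
    rw [LP.cpy_eval (h3 i) e1 h2.ne x (hx base le_rfl (by omega)), h0, zero_add]
    simp only [List.Vector.get_ofFn]

private theorem cmp_succ : Cmp (fun v : List.Vector ℕ 1 => Nat.succ v.head) := by
  intro ins out base h1 h2 h3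
  obtain ⟨p, B, hB, hWF, hregs, hev⟩ := cmp_get (0 : Fin 1) ins out base h1 h2 h3
  refine ⟨.seq p (.inc out), B, hB, ⟨hWF, trivial⟩, ?_, ?_⟩
  · intro j hj
    simp only [LP.regs, Finset.mem_union, Finset.mem_singleton] at hj
    rcases hj with hj | hj
    · exact hregs j hj
    · exact Or.inr (Or.inl hj)
  · intro x hx h0
    simp only [LP.eval]
    rw [hev x hx h0, update_self, update_idem]
    simp only [List.Vector.get_zero, Nat.succ_eq_add_one]

private theorem cmp_comp_aux {m n : ℕ} {g : Fin n → List.Vector ℕ m → ℕ}
    (hg : ∀ i, Cmp (g i)) (ins : Fin m → ℕ) (base : ℕ) (h1 : ∀ i, ins i < base) (k : ℕ)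
    (hk : k ≤ n) : ∃ (p : LP) (B : ℕ), base + n ≤ B ∧ p.WF ∧
      (∀ j ∈ p.regs, (∃ i, j = ins i) ∨ (base ≤ j ∧ j < B)) ∧
      ∀ x : ℕ → ℕ, (∀ j, base ≤ j → j < B → x j = 0) →
        (∀ i : Fin n, (i : ℕ) < k →
          p.eval x (base + i) = g i (List.Vector.ofFn fun i => x (ins i))) ∧
        (∀ j, ¬ (base ≤ j ∧ j < base + k) → p.eval x j = x j) := by
  induction k with
  | zero =>
    refine ⟨.skip, base + n, le_rfl, trivial, ?_, ?_⟩
    · intro j hj
      simp [LP.regs] at hj
    · intro x _
      exact ⟨fun i hi => absurd hi (Nat.not_lt_zero _), fun j _ => rfl⟩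
  | succ k ih =>
    obtain ⟨p, B, hB, hWF, hregs, hev⟩ := ih (by omega)
    obtain ⟨q, B', hB', hWF', hregs', hev'⟩ := hg ⟨k, by omega⟩ ins (base + k) (base + n)
      (fun i => lt_of_lt_of_le (h1 i) (by omega)) (by omega) (fun i => by have := h1 i; omega)
    refine ⟨.seq p q, max B B', le_trans hB (le_max_left _ _), ⟨hWF, hWF'⟩, ?_, ?_⟩
    · intro j hj
      simp only [LP.regs, Finset.mem_union] at hj
      rcases hj with hj | hj
      · rcases hregs j hj with h | h
        · exact Or.inl h
        · exact Or.inr ⟨h.1, lt_of_lt_of_le h.2 (le_max_left _ _)⟩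
      · rcases hregs' j hj with h | h | h
        · exact Or.inl h
        · refine Or.inr ⟨by omega, ?_⟩
          have := le_max_left B B'
          omega
        · exact Or.inr ⟨by omega, lt_of_lt_of_le h.2 (le_max_right _ _)⟩
    · intro x hx
      have hx1 : ∀ j, base ≤ j → j < B → x j = 0 :=
        fun j a b => hx j a (lt_of_lt_of_le b (le_max_left _ _))
      obtain ⟨ev1, ev2⟩ := hev x hx1
      have hins : ∀ i, p.eval x (ins i) = x (ins i) := by
        intro i
        apply ev2
        have := h1 i
        omega
      have hq := hev' (p.eval x)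
        (fun j a b => by
          rw [ev2 j (by omega)]
          exact hx j (by omega) (lt_of_lt_of_le b (le_max_right _ _)))
        (by
          rw [ev2 _ (by omega)]
          exact hx1 _ (by omega) (by omega))
      simp only [hins] at hq
      simp only [LP.eval]
      rw [hq]
      constructor
      · intro i hi
        by_cases h : (i : ℕ) = k
        · have hik : i = ⟨k, by omega⟩ := Fin.ext h
          rw [hik]
          simp
        · rw [update_of_ne (by omega)]
          exact ev1 i (by omega)
      · intro j hj
        rw [update_of_ne (by omega)]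
        exact ev2 j (by omega)

private theorem cmp_comp {m n : ℕ} {f : List.Vector ℕ n → ℕ}
    {g : Fin n → List.Vector ℕ m → ℕ} (hf : Cmp f)
    (hg : ∀ i, Cmp (g i)) : Cmp (fun a => f (List.Vector.ofFn fun i => g i a)) := by
  intro ins out base h1 h2 h3
  obtain ⟨p, B, hB, hWF, hregs, hev⟩ := cmp_comp_aux hg ins base h1 n le_rfl
  obtain ⟨q, B', hB', hWF', hregs', hev'⟩ := hf (fun i => base + i) out (base + n)
    (fun i => by have := i.2; omega) (by omega) (fun i => by omega)
  refine ⟨.seq p (.seq q (LP.clrs base n)), max B B', ?_, ⟨hWF, hWF', LP.clrs_WF _ _⟩, ?_, ?_⟩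
  · have := le_max_left B B'
    omega
  · intro j hj
    simp only [LP.regs, Finset.mem_union] at hj
    have hm1 := le_max_left B B'
    have hm2 := le_max_right B B'
    rcases hj with hj | hj | hj
    · rcases hregs j hj with h | h
      · exact Or.inl h
      · exact Or.inr (Or.inr ⟨h.1, by omega⟩)
    · rcases hregs' j hj with ⟨i, h⟩ | h | h
      · have := i.2
        exact Or.inr (Or.inr ⟨by omega, by omega⟩)
      · exact Or.inr (Or.inl h)
      · exact Or.inr (Or.inr ⟨by omega, by omega⟩)
    · have := LP.clrs_regs _ _ j hj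
      exact Or.inr (Or.inr ⟨by omega, by omega⟩)
  · intro x hx h0
    have hm1 := le_max_left B B'
    have hm2 := le_max_right B B'
    obtain ⟨ev1, ev2⟩ := hev x (fun j a b => hx j a (by omega))
    have hq := hev' (p.eval x)
      (fun j a b => by
        rw [ev2 j (by omega)]
        exact hx j (by omega) (by omega))
      (by
        rw [ev2 _ (by omega)]
        exact h0)
    have e1 : (fun i : Fin n => p.eval x (base + i))
        = fun i => g i (List.Vector.ofFn fun i => x (ins i)) := by
      funext i
      exact ev1 i i.2
    rw [e1] at hq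
    simp only [LP.eval]
    rw [hq, LP.clrs_eval]
    funext j
    split_ifs with hj
    · rw [update_of_ne (by omega), hx j hj.1 (by omega)]
    · by_cases hjo : j = out
      · subst hjo
        simp
      · rw [update_of_ne hjo, update_of_ne hjo]
        exact ev2 j hj

private theorem cmp_prec {n : ℕ} {f : List.Vector ℕ n → ℕ} {g : List.Vector ℕ (n + 2) → ℕ}
    (hf : Cmp f) (hg : Cmp g) : Cmp (fun v : List.Vector ℕ (n + 1) =>
      Nat.rec (motive := fun _ => ℕ) (f v.tail) (fun y IH => g (y ::ᵥ IH ::ᵥ v.tail)) v.head) := by
  intro ins out base h1 h2 h3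
  obtain ⟨pf, Bf, hBf, hWFf, hregsf, hevf⟩ := hf (fun i => ins i.succ) base (base + 4)
    (fun i => by have := h1 i.succ; omega) (by omega) (fun i => by have := h1 i.succ; omega)
  obtain ⟨pg, Bg, hBg, hWFg, hregsg, hevg⟩ := hg
    (Fin.cons (base + 1) (Fin.cons base fun i => ins i.succ)) (base + 3) (base + 4)
    (fun i => by
      refine Fin.cases ?_ (fun i => Fin.cases ?_ (fun i => ?_) i) i
      · simp
      · simp
      · have := h1 i.succ
        simp only [Fin.cons_succ]
        omega)
    (by omega)
    (fun i => by
      refine Fin.cases ?_ (fun i => Fin.cases ?_ (fun i => ?_) i) i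
      · simp
      · simp
      · have := h1 i.succ
        simp only [Fin.cons_succ]
        omega)
  have h10 := h1 0
  have hregsg' : ∀ j ∈ pg.regs, (∃ i : Fin (n + 1), j = ins i) ∨ j = base ∨ j = base + 1
      ∨ j = base + 3 ∨ (base + 4 ≤ j ∧ j < Bg) := by
    intro j hj
    rcases hregsg j hj with ⟨i, h⟩ | h | h
    · revert h
      refine Fin.cases ?_ (fun i => Fin.cases ?_ (fun i => ?_) i) i
      · intro h
        simp only [Fin.cons_zero] at h
        tauto
      · intro h
        simp only [Fin.cons_succ, Fin.cons_zero] at h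
        tauto
      · intro h
        simp only [Fin.cons_succ] at h
        exact Or.inl ⟨i.succ, h⟩
    · tauto
    · tauto
  have hm1 := le_max_left Bf Bg
  have hm2 := le_max_right Bf Bg
  set B := max Bf Bg + 1 with hBdef
  refine ⟨.seq pf (.seq (LP.cpy (ins 0) (base + 2) (base + 4))
    (.seq (.loop (base + 2) (.seq pg (.seq (LP.clr base) (.seq (LP.mov (base + 3) base)
      (.inc (base + 1)))))) (.seq (LP.mov base out) (LP.clr (base + 1))))), B, by omega, ?_, ?_, ?_⟩
  · refine ⟨hWFf, cpy_WF' (by omega) (by omega), ⟨?_, hWFg, clr_WF' _, mov_WF' (by omega),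
      trivial⟩, mov_WF' (by omega), clr_WF' _⟩
    simp only [LP.regs, Finset.mem_union, Finset.mem_singleton]
    rintro (h | h | h | h)
    · rcases hregsg' _ h with ⟨i, h⟩ | h | h | h | h
      · have := h1 i
        omega
      · omega
      · omega
      · omega
      · omega
    · have := clr_regs' h
      omega
    · have := mov_regs' h
      omega
    · omega
  · intro j hj
    have hloop : ∀ j, j ∈ (LP.loop (base + 2) (.seq pg (.seq (LP.clr base)
        (.seq (LP.mov (base + 3) base) (.inc (base + 1)))))).regs →
        (∃ i, j = ins i) ∨ j = out ∨ (base ≤ j ∧ j < B) := by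
      intro j hj
      simp only [LP.regs, Finset.mem_union, Finset.mem_singleton, Finset.mem_insert] at hj
      rcases hj with hj | hj | hj | hj | hj
      · exact Or.inr (Or.inr ⟨by omega, by omega⟩)
      · rcases hregsg' _ hj with h | h | h | h | h
        · exact Or.inl h
        · exact Or.inr (Or.inr ⟨by omega, by omega⟩)
        · exact Or.inr (Or.inr ⟨by omega, by omega⟩)
        · exact Or.inr (Or.inr ⟨by omega, by omega⟩)
        · exact Or.inr (Or.inr ⟨by omega, by omega⟩)
      · have := clr_regs' hj
        exact Or.inr (Or.inr ⟨by omega, by omega⟩)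
      · have := mov_regs' hj
        exact Or.inr (Or.inr ⟨by omega, by omega⟩)
      · exact Or.inr (Or.inr ⟨by omega, by omega⟩)
    rw [LP.regs, Finset.mem_union] at hj
    rcases hj with hj | hj
    · rcases hregsf j hj with ⟨i, h⟩ | h | h
      · exact Or.inl ⟨i.succ, h⟩
      · exact Or.inr (Or.inr ⟨by omega, by omega⟩)
      · exact Or.inr (Or.inr ⟨by omega, by omega⟩)
    rw [LP.regs, Finset.mem_union] at hj
    rcases hj with hj | hj
    · rcases cpy_regs' hj with h | h | h
      · exact Or.inl ⟨0, h⟩
      · exact Or.inr (Or.inr ⟨by omega, by omega⟩)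
      · exact Or.inr (Or.inr ⟨by omega, by omega⟩)
    rw [LP.regs, Finset.mem_union] at hj
    rcases hj with hj | hj
    · exact hloop j hj
    rw [LP.regs, Finset.mem_union] at hj
    rcases hj with hj | hj
    · rcases mov_regs' hj with h | h
      · exact Or.inr (Or.inr ⟨by omega, by omega⟩)
      · exact Or.inr (Or.inl h)
    · have := clr_regs' hj
      exact Or.inr (Or.inr ⟨by omega, by omega⟩)
  · intro x hx h0
    have hb0 : x base = 0 := hx _ (by omega) (by omega)
    have hb1 : x (base + 1) = 0 := hx _ (by omega) (by omega)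
    have hb2 : x (base + 2) = 0 := hx _ (by omega) (by omega)
    have hb3 : x (base + 3) = 0 := hx _ (by omega) (by omega)
    have hb4 : x (base + 4) = 0 := hx _ (by omega) (by omega)
    have ef := hevf x (fun j a b => hx j (by omega) (by omega)) hb0
    set t : List.Vector ℕ n := List.Vector.ofFn fun i : Fin n => x (ins i.succ) with ht
    set F : ℕ → ℕ := fun k => Nat.rec (motive := fun _ => ℕ) (f t)
      (fun y IH => g (y ::ᵥ IH ::ᵥ t)) k with hF
    have hgoal : (Nat.rec (motive := fun _ => ℕ)
        (f (List.Vector.ofFn fun i => x (ins i)).tail)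
        (fun y IH => g (y ::ᵥ IH ::ᵥ (List.Vector.ofFn fun i => x (ins i)).tail))
        (List.Vector.ofFn fun i => x (ins i)).head) = F (x (ins 0)) := by
      simp only [List.Vector.tail_ofFn, List.Vector.head_ofFn, hF, ht]
    beta_reduce
    rw [hgoal]
    have ec : (LP.cpy (ins 0) (base + 2) (base + 4)).eval (update x base (f t))
        = update (update x base (f t)) (base + 2) (x (ins 0)) := by
      rw [LP.cpy_eval (by omega) (by omega) (by omega)]
      · rw [update_of_ne (by omega), update_of_ne (by omega), hb2, zero_add]
      · rw [update_of_ne (by omega), hb4]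
    set st : ℕ → ℕ → ℕ := fun k => update (update x base (F k)) (base + 1) k with hst
    have e0 : update (update (update x base (f t)) (base + 2) (x (ins 0))) (base + 2) 0 = st 0 := by
      rw [update_idem]
      funext j
      simp only [hst, hF, update_apply]
      split_ifs <;> simp_all
    have estep : ∀ k, (LP.seq pg (.seq (LP.clr base) (.seq (LP.mov (base + 3) base)
        (.inc (base + 1))))).eval (st k) = st (k + 1) := by
      intro k
      have eg := hevg (st k)
        (fun j a b => by
          simp only [hst]
          rw [update_of_ne (by omega), update_of_ne (by omega)]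
          exact hx j (by omega) (by omega))
        (by
          simp only [hst]
          rw [update_of_ne (by omega), update_of_ne (by omega)]
          exact hb3)
      have ev : (List.Vector.ofFn fun i => st k
          ((Fin.cons (base + 1) (Fin.cons base fun i => ins i.succ) : Fin (n + 2) → ℕ) i))
          = k ::ᵥ F k ::ᵥ t := by
        rw [List.Vector.ofFn, List.Vector.ofFn]
        simp only [Fin.cons_zero, Fin.cons_succ]
        congr 1
        · simp [hst]
        congr 1
        · simp only [hst]
          rw [update_of_ne (by omega), update_self]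
        · rw [ht]
          congr 1
          funext i
          have := h1 i.succ
          simp only [hst]
          rw [update_of_ne (by omega), update_of_ne (by omega)]
      rw [ev] at eg
      simp only [LP.eval]
      rw [eg, LP.clr_eval, LP.mov_eval (by omega)]
      have eF : F (k + 1) = g (k ::ᵥ F k ::ᵥ t) := rfl
      funext j
      simp only [hst, eF, update_apply]
      split_ifs <;> first | omega | simp_all
    have eiter : ∀ k, ((LP.seq pg (.seq (LP.clr base) (.seq (LP.mov (base + 3) base)
        (.inc (base + 1))))).eval)^[k] (st 0) = st k := by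
      intro k
      induction k with
      | zero => rfl
      | succ k ih => rw [Function.iterate_succ_apply', ih, estep]
    have eloop : (LP.loop (base + 2) (.seq pg (.seq (LP.clr base) (.seq (LP.mov (base + 3) base)
        (.inc (base + 1)))))).eval (update (update x base (f t)) (base + 2) (x (ins 0)))
        = st (x (ins 0)) := by
      rw [LP.eval, e0, update_self, eiter]
    rw [LP.eval, ef, LP.eval, ec, LP.eval, eloop, LP.eval, LP.clr_eval, LP.mov_eval (by omega)]
    funext j
    simp only [hst, update_apply]
    split_ifs <;> first | omega | simp_all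

theorem exists_LP {n : ℕ} {f : List.Vector ℕ n → ℕ} (hf : Nat.Primrec' f) :
    ∀ (ins : Fin n → ℕ) (out base : ℕ), (∀ i, ins i < base) → out < base → (∀ i, ins i ≠ out) →
    ∃ (p : LP) (B : ℕ), base ≤ B ∧ p.WF ∧ (∀ j ∈ p.regs, j < B) ∧
      ∀ x : ℕ → ℕ, (∀ j, base ≤ j → j < B → x j = 0) → x out = 0 →
        p.eval x = update x out (f (List.Vector.ofFn fun i => x (ins i))) := by
  have main : Cmp f := by
    induction hf with
    | zero => exact cmp_zero
    | succ => exact cmp_succ
    | get i => exact cmp_get i
    | comp g _ _ ihf ihg => exact cmp_comp ihf ihg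
    | prec _ _ ihf ihg => exact cmp_prec ihf ihg
  intro ins out base h1 h2 h3
  obtain ⟨p, B, hB, hWF, hregs, hev⟩ := main ins out base h1 h2 h3
  refine ⟨p, B, hB, hWF, ?_, hev⟩
  intro j hj
  rcases hregs j hj with ⟨i, h⟩ | h | h
  · have := h1 i
    omega
  · omega
  · exact h.2

end P193.Mach
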